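import Mathlib

/-!
# P249, cube lower bound (helper53, report 1854): piece (X2) and distinctness of the points

Backup copy by helper3 of pool job 219.

* `x2_lower`: the averaged lower estimate
  `8^K * (2K)^(q/2) ≤ ∑_{a,b,e} |∑_i (sg (a i) - sg (b i)) * sg (e i)|^q` for `q ≥ 2`;
* `rad_injective`: the points `a ↦ (e ↦ ∑_i sg (a i) * sg (e i))` are distinct.
-/

namespace Vale.Agent.Lib.P249.H3x2

open Finset

/-- sign of a bit: `false ↦ 1`, `true ↦ -1`. -/
def sg (b : Bool) : ℝ := if b then -1 else 1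

lemma sg_mul_self (b : Bool) : sg b * sg b = 1 := by cases b <;> simp [sg]

lemma sg_not (b : Bool) : sg (!b) = - sg b := by cases b <;> simp [sg]

/-- flipping coordinate `i`. -/
def flip {K : ℕ} (i : Fin K) (e : Fin K → Bool) : Fin K → Bool :=
  Function.update e i (!(e i))

lemma flip_flip {K : ℕ} (i : Fin K) (e : Fin K → Bool) : flip i (flip i e) = e := by
  unfold flip
  simp

lemma flip_same {K : ℕ} (i : Fin K) (e : Fin K → Bool) : flip i e i = !(e i) := by
  unfold flip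
  simp

lemma flip_ne {K : ℕ} (i j : Fin K) (hij : j ≠ i) (e : Fin K → Bool) : flip i e j = e j := by
  unfold flip
  exact Function.update_of_ne hij _ _

lemma sum_eq_zero_of_flip {K : ℕ} (i : Fin K) (F : (Fin K → Bool) → ℝ)
    (hF : ∀ e, F (flip i e) = - F e) : ∑ e, F e = 0 := by
  have h1 : ∑ e, F (flip i e) = ∑ e, F e :=
    Equiv.sum_comp (Function.Involutive.toPerm (flip i) (flip_flip i)) F
  have h2 : ∑ e, F (flip i e) = - ∑ e, F e := by
    rw [← Finset.sum_neg_distrib]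
    exact Finset.sum_congr rfl (fun e _ => hF e)
  linarith

lemma sum_sg {K : ℕ} (i : Fin K) : ∑ e : Fin K → Bool, sg (e i) = 0 := by
  apply sum_eq_zero_of_flip i
  intro e
  rw [flip_same, sg_not]

lemma sum_sg_mul {K : ℕ} (i j : Fin K) (hij : j ≠ i) :
    ∑ e : Fin K → Bool, sg (e i) * sg (e j) = 0 := by
  apply sum_eq_zero_of_flip i
  intro e
  rw [flip_same, sg_not, flip_ne i j hij]
  ring

lemma card_cube (K : ℕ) : (Fintype.card (Fin K → Bool) : ℝ) = 2 ^ K := by
  simp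

/-- orthogonality: the second moment of a Rademacher sum. -/
lemma sum_sq_rad {K : ℕ} (c : Fin K → ℝ) :
    ∑ e : Fin K → Bool, (∑ i, c i * sg (e i)) ^ 2 = 2 ^ K * ∑ i, c i ^ 2 := by
  have h1 : ∀ e : Fin K → Bool,
      (∑ i, c i * sg (e i)) ^ 2 = ∑ i, ∑ j, c i * c j * (sg (e i) * sg (e j)) := by
    intro e
    rw [sq, Finset.sum_mul_sum]
    refine Finset.sum_congr rfl fun i _ => Finset.sum_congr rfl fun j _ => by ring
  simp_rw [h1]
  rw [Finset.sum_comm, Finset.mul_sum]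
  refine Finset.sum_congr rfl fun i _ => ?_
  rw [Finset.sum_comm, Finset.sum_eq_single i]
  · simp_rw [sg_mul_self]
    rw [Finset.sum_const, Finset.card_univ, nsmul_eq_mul, card_cube]
    ring
  · intro j _ hji
    rw [← Finset.mul_sum, sum_sg_mul i j hji, mul_zero]
  · intro h
    exact absurd (Finset.mem_univ i) h

lemma sum_ab {K : ℕ} (i : Fin K) :
    ∑ a : Fin K → Bool, ∑ b : Fin K → Bool, (sg (a i) - sg (b i)) ^ 2 = 2 * 4 ^ K := by
  have h1 : ∀ a b : Fin K → Bool,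
      (sg (a i) - sg (b i)) ^ 2 = 2 - 2 * (sg (a i) * sg (b i)) := by
    intro a b
    have ha := sg_mul_self (a i)
    have hb := sg_mul_self (b i)
    nlinarith
  simp_rw [h1]
  simp only [Finset.sum_sub_distrib, Finset.sum_const, Finset.card_univ, nsmul_eq_mul,
    ← Finset.mul_sum, sum_sg, card_cube]
  have : (4:ℝ) ^ K = 2 ^ K * 2 ^ K := by
    rw [← mul_pow]; norm_num
  rw [this]
  simp only [mul_zero, Finset.sum_const_zero]
  ring

/-- the second moment over all triples. -/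
lemma second_moment (K : ℕ) :
    ∑ a : Fin K → Bool, ∑ b : Fin K → Bool, ∑ e : Fin K → Bool,
      (∑ i, (sg (a i) - sg (b i)) * sg (e i)) ^ 2 = 8 ^ K * (2 * K) := by
  have h1 : ∀ a b : Fin K → Bool, ∑ e : Fin K → Bool,
      (∑ i, (sg (a i) - sg (b i)) * sg (e i)) ^ 2 = 2 ^ K * ∑ i, (sg (a i) - sg (b i)) ^ 2 :=
    fun a b => sum_sq_rad (fun i => sg (a i) - sg (b i))
  have h2 : ∑ a : Fin K → Bool, ∑ b : Fin K → Bool, ∑ i, (sg (a i) - sg (b i)) ^ 2
      = ∑ i : Fin K, ∑ a : Fin K → Bool, ∑ b : Fin K → Bool, (sg (a i) - sg (b i)) ^ 2 := by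
    rw [Finset.sum_comm (s := (Finset.univ : Finset (Fin K)))]
    refine Finset.sum_congr rfl fun a _ => ?_
    rw [Finset.sum_comm]
  have h3 : ∑ a : Fin K → Bool, ∑ b : Fin K → Bool, ∑ e : Fin K → Bool,
      (∑ i, (sg (a i) - sg (b i)) * sg (e i)) ^ 2
      = 2 ^ K * ∑ a : Fin K → Bool, ∑ b : Fin K → Bool, ∑ i, (sg (a i) - sg (b i)) ^ 2 := by
    rw [Finset.mul_sum]
    refine Finset.sum_congr rfl fun a _ => ?_
    rw [Finset.mul_sum]
    refine Finset.sum_congr rfl fun b _ => ?_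
    exact h1 a b
  rw [h3, h2]
  simp_rw [sum_ab]
  rw [Finset.sum_const, Finset.card_univ, Fintype.card_fin, nsmul_eq_mul]
  have : (8:ℝ) ^ K = 2 ^ K * 4 ^ K := by
    rw [← mul_pow]; norm_num
  rw [this]
  ring

/-- power mean inequality on a finite type. -/
lemma power_mean {ι : Type*} [Fintype ι] (z : ι → ℝ) (hz : ∀ i, 0 ≤ z i) (r : ℝ) (hr : 1 ≤ r)
    (N : ℝ) (hN : N = Fintype.card ι) (hNpos : 0 < N) :
    N * ((∑ i, z i) / N) ^ r ≤ ∑ i, z i ^ r := by
  have h := Real.rpow_arith_mean_le_arith_mean_rpow Finset.univ (fun _ : ι => 1 / N) z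
    (fun _ _ => by positivity)
    (by rw [Finset.sum_const, Finset.card_univ, nsmul_eq_mul, ← hN]; field_simp)
    (fun i _ => hz i) hr
  rw [← Finset.mul_sum, ← Finset.mul_sum] at h
  have h2 : (1 / N * ∑ i, z i) = (∑ i, z i) / N := by ring
  rw [h2] at h
  calc N * ((∑ i, z i) / N) ^ r ≤ N * (1 / N * ∑ i, z i ^ r) := by gcongr
    _ = ∑ i, z i ^ r := by field_simp

theorem x2_lower (K : ℕ) (q : ℝ) (hq : 2 ≤ q) :
    (8:ℝ) ^ K * (2 * K) ^ (q / 2) ≤
      ∑ a : Fin K → Bool, ∑ b : Fin K → Bool, ∑ e : Fin K → Bool,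
        |∑ i, ((if a i then (-1:ℝ) else 1) - (if b i then (-1:ℝ) else 1))
          * (if e i then (-1:ℝ) else 1)| ^ q := by
  set z : (Fin K → Bool) × (Fin K → Bool) × (Fin K → Bool) → ℝ :=
    fun t => ∑ i, (sg (t.1 i) - sg (t.2.1 i)) * sg (t.2.2 i) with hz
  have hsum2 : ∑ t, z t ^ 2 = 8 ^ K * (2 * K) := by
    rw [Fintype.sum_prod_type]
    simp_rw [Fintype.sum_prod_type]
    exact second_moment K
  have hcard : ((8:ℝ) ^ K) = Fintype.card ((Fin K → Bool) × (Fin K → Bool) × (Fin K → Bool)) := by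
    simp only [Fintype.card_prod, Fintype.card_pi, Fintype.card_bool, Finset.prod_const,
      Finset.card_univ, Fintype.card_fin]
    push_cast
    rw [← mul_pow, ← mul_pow]
    norm_num
  have hpm := power_mean (fun t => z t ^ 2) (fun t => sq_nonneg _) (q / 2) (by linarith)
    ((8:ℝ) ^ K) hcard (by positivity)
  rw [hsum2] at hpm
  have h8 : (8:ℝ) ^ K * (2 * (K:ℝ)) / 8 ^ K = 2 * K := by
    field_simp
  rw [h8] at hpm
  have hpow : ∀ t, (z t ^ 2) ^ (q / 2) = |z t| ^ q := by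
    intro t
    rw [← sq_abs, ← Real.rpow_natCast, ← Real.rpow_mul (abs_nonneg _)]
    congr 1
    push_cast
    ring
  simp_rw [hpow] at hpm
  rw [Fintype.sum_prod_type] at hpm
  simp_rw [Fintype.sum_prod_type] at hpm
  exact hpm

theorem rad_injective (K : ℕ) :
    Function.Injective (fun (a : Fin K → Bool) (e : Fin K → Bool) =>
      ∑ i, (if a i then (-1:ℝ) else 1) * (if e i then (-1:ℝ) else 1)) := by
  intro a b hab
  have h := congrFun hab a
  simp only at h
  change ∑ i, sg (a i) * sg (a i) = ∑ i, sg (b i) * sg (a i) at h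
  have h0 : ∑ i : Fin K, (1 - sg (b i) * sg (a i)) = 0 := by
    rw [Finset.sum_sub_distrib, ← h]
    simp [sg_mul_self]
  have hnn : ∀ i ∈ (Finset.univ : Finset (Fin K)), 0 ≤ 1 - sg (b i) * sg (a i) := by
    intro i _
    cases a i <;> cases b i <;> simp [sg]
  have h1 := (Finset.sum_eq_zero_iff_of_nonneg hnn).mp h0
  funext i
  have h2 := h1 i (Finset.mem_univ i)
  revert h2
  cases a i <;> cases b i <;> simp [sg]

end Vale.Agent.Lib.P249.H3x2
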