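import Vale.Agent.Lib.P249.helper3.CubeCore
import Vale.Agent.Lib.P249.helper3.X2

/-!
# P249, cube lower bound (helper53, report 1854): assembly over the cube (backup copy, helper3)

The two remaining inputs, the pairwise upper estimate (X1) and the concentration lemma, enter as
the explicit hypotheses `X1Statement` and `ConcStatement` (the literal pool job statements), so
that this file does not depend on which copy of them is used.
-/

namespace Vale.Agent.Lib.P249.H3cube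

open Finset

/-- the pool job statement of (X1). -/
def X1Statement : Prop :=
  ∀ (K : ℕ) (q : ℝ), 2 ≤ q → ∀ a b : Fin K → Bool,
    ∑ e : Fin K → Bool,
      |∑ i, ((if a i then (-1:ℝ) else 1) - (if b i then (-1:ℝ) else 1))
        * (if e i then (-1:ℝ) else 1)| ^ q
      ≤ 2 * q ^ (q / 2) * 2 ^ q * 2 ^ K * (hammingDist a b : ℝ) ^ (q / 2)

/-- the pool job statement of the concentration lemma. -/
def ConcStatement : Prop :=
  ∀ (K : ℕ), 1 ≤ K → ∀ (q : ℝ), 2 ≤ q → ∀ (Lam : ℝ), 0 ≤ Lam →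
    ∀ (h : (Fin K → Bool) → ℝ),
      (∀ a b, |h a - h b| ≤ Lam * Real.sqrt (hammingDist a b)) →
      ∑ a, ∑ b, |h a - h b| ^ q ≤ 4 ^ K * 2 ^ (q + 2) * Lam ^ q * (q * K) ^ (q / 4)

/-- the cube points: the Rademacher copy of the Euclidean cube. -/
def pt (K : ℕ) (a e : Fin K → Bool) : ℝ :=
  ∑ i, (if a i then (-1:ℝ) else 1) * (if e i then (-1:ℝ) else 1)

lemma pt_sub (K : ℕ) (a b e : Fin K → Bool) :
    pt K a e - pt K b e
      = ∑ i, ((if a i then (-1:ℝ) else 1) - (if b i then (-1:ℝ) else 1))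
          * (if e i then (-1:ℝ) else 1) := by
  unfold pt
  rw [← Finset.sum_sub_distrib]
  refine Finset.sum_congr rfl fun i _ => by ring

theorem cube_real (hx1 : X1Statement) (hconc : ConcStatement) (q : ℝ) (hq : 2 ≤ q)
    (K : ℕ) (hK : 1 ≤ K) (d : ℕ) (y : (Fin K → Bool) → Fin d → ℝ) (s D : ℝ)
    (hs : 0 < s) (hD : 0 ≤ D)
    (hlow : ∀ a b, s ^ q * ∑ e, |pt K a e - pt K b e| ^ q ≤ ∑ j, |y a j - y b j| ^ q)
    (hup : ∀ a b, ∑ j, |y a j - y b j| ^ q ≤ (D * s) ^ q * ∑ e, |pt K a e - pt K b e| ^ q) :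
    (K:ℝ) ^ (q / 4) ≤ 2 ^ (3 * q / 2 + 3) * q ^ (3 * q / 4) * (D ^ q * d) := by
  have hq0 : 0 < q := by linarith
  have hK0 : (0:ℝ) < K := by exact_mod_cast hK
  have hcore := core q hq (fun a b : Fin K → Bool => (hammingDist a b : ℝ))
    (fun a b => Nat.cast_nonneg _)
    (pt K) (2 * q ^ (q / 2) * 2 ^ q * 2 ^ K) (8 ^ K * (2 * K) ^ (q / 2))
    (4 ^ K * 2 ^ (q + 2) * (q * K) ^ (q / 4))
    (by positivity)
    (fun a b => by simp_rw [pt_sub]; exact hx1 K q hq a b)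
    (by simp_rw [pt_sub]; exact H3x2.x2_lower K q hq)
    (fun h Lam hLam hl => by
      have h1 := hconc K hK q hq Lam hLam h hl
      calc ∑ a, ∑ b, |h a - h b| ^ q
          ≤ 4 ^ K * 2 ^ (q + 2) * Lam ^ q * (q * K) ^ (q / 4) := h1
        _ = 4 ^ K * 2 ^ (q + 2) * (q * K) ^ (q / 4) * Lam ^ q := by ring)
    d y s D hs hD hlow hup
  -- algebra
  have hA : 0 < (K:ℝ) ^ (q / 4) := Real.rpow_pos_of_pos hK0 _
  have hP : 0 < (2:ℝ) ^ (q / 2) := Real.rpow_pos_of_pos (by norm_num) _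
  have e1 : (2 * (K:ℝ)) ^ (q / 2) = (2:ℝ) ^ (q / 2) * ((K:ℝ) ^ (q / 4) * (K:ℝ) ^ (q / 4)) := by
    rw [Real.mul_rpow (by norm_num) hK0.le, ← Real.rpow_add hK0]
    congr 2
    ring
  have e2 : (q * (K:ℝ)) ^ (q / 4) = q ^ (q / 4) * (K:ℝ) ^ (q / 4) :=
    Real.mul_rpow hq0.le hK0.le
  have e3 : (2:ℝ) ^ q = (2:ℝ) ^ (q / 2) * (2:ℝ) ^ (q / 2) := by
    rw [← Real.rpow_add (by norm_num)]
    congr 1
    ring
  have e4 : (2:ℝ) ^ (q + 2) = 4 * ((2:ℝ) ^ (q / 2) * (2:ℝ) ^ (q / 2)) := by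
    rw [Real.rpow_add (by norm_num), e3]
    norm_num
    ring
  have e5 : (2:ℝ) ^ (3 * q / 2 + 3)
      = 8 * ((2:ℝ) ^ (q / 2) * (2:ℝ) ^ (q / 2) * (2:ℝ) ^ (q / 2)) := by
    have : 3 * q / 2 + 3 = q / 2 + q / 2 + q / 2 + 3 := by ring
    rw [this, Real.rpow_add (by norm_num), Real.rpow_add (by norm_num),
      Real.rpow_add (by norm_num)]
    norm_num
    ring
  have e6 : q ^ (3 * q / 4) = q ^ (q / 4) * q ^ (q / 2) := by
    rw [← Real.rpow_add hq0]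
    congr 1
    ring
  have e7 : (8:ℝ) ^ K = 4 ^ K * 2 ^ K := by
    rw [← mul_pow]
    norm_num
  rw [e1, e2, e4, e3, e7] at hcore
  rw [e5, e6]
  have hpos : 0 < (4:ℝ) ^ K * 2 ^ K * (2:ℝ) ^ (q / 2) * (K:ℝ) ^ (q / 4) := by positivity
  refine le_of_mul_le_mul_left ?_ hpos
  calc (4:ℝ) ^ K * 2 ^ K * (2:ℝ) ^ (q / 2) * (K:ℝ) ^ (q / 4) * (K:ℝ) ^ (q / 4)
      = 4 ^ K * 2 ^ K * ((2:ℝ) ^ (q / 2) * ((K:ℝ) ^ (q / 4) * (K:ℝ) ^ (q / 4))) := by ring
    _ ≤ _ := hcore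
    _ = _ := by ring

end Vale.Agent.Lib.P249.H3cube
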