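import Mathlib

/-!
# P249, cube lower bound (helper53, report 1854): the abstract assembly step

Backup copy by helper3.  `core`: if the source points `x : Q → E → ℝ` satisfy a pairwise upper
estimate `(U)` in terms of a function `ham`, an averaged lower estimate `(M)`, and every real
function on `Q` that is Lipschitz for `sqrt ham` satisfies the concentration estimate `(C)`, then
every map `y` into `d` real coordinates with `q`-distortion `D` (and scaling `s`) has
`M ≤ d * (C * (D ^ q * U))`.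
-/

namespace Vale.Agent.Lib.P249.H3cube

open Finset

theorem core {Q E : Type*} [Fintype Q] [Fintype E] (q : ℝ) (hq : 2 ≤ q)
    (ham : Q → Q → ℝ) (hham : ∀ a b, 0 ≤ ham a b)
    (x : Q → E → ℝ) (U M C : ℝ) (hU0 : 0 ≤ U)
    (hU : ∀ a b, ∑ e, |x a e - x b e| ^ q ≤ U * ham a b ^ (q / 2))
    (hM : M ≤ ∑ a, ∑ b, ∑ e, |x a e - x b e| ^ q)
    (hC : ∀ (h : Q → ℝ) (Lam : ℝ), 0 ≤ Lam →
      (∀ a b, |h a - h b| ≤ Lam * Real.sqrt (ham a b)) →
      ∑ a, ∑ b, |h a - h b| ^ q ≤ C * Lam ^ q)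
    (d : ℕ) (y : Q → Fin d → ℝ) (s D : ℝ) (hs : 0 < s) (hD : 0 ≤ D)
    (hlow : ∀ a b, s ^ q * ∑ e, |x a e - x b e| ^ q ≤ ∑ j, |y a j - y b j| ^ q)
    (hup : ∀ a b, ∑ j, |y a j - y b j| ^ q ≤ (D * s) ^ q * ∑ e, |x a e - x b e| ^ q) :
    M ≤ d * (C * (D ^ q * U)) := by
  have hq0 : 0 < q := by linarith
  have hDs : 0 ≤ D * s := mul_nonneg hD hs.le
  set Lam : ℝ := D * s * U ^ (1 / q) with hLam
  have hLam0 : 0 ≤ Lam := mul_nonneg hDs (Real.rpow_nonneg hU0 _)
  have hLamq : Lam ^ q = (D * s) ^ q * U := by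
    rw [hLam, Real.mul_rpow hDs (Real.rpow_nonneg hU0 _), ← Real.rpow_mul hU0,
      one_div, inv_mul_cancel₀ hq0.ne', Real.rpow_one]
  -- each coordinate is Lipschitz for sqrt ham
  have hlip : ∀ j a b, |y a j - y b j| ≤ Lam * Real.sqrt (ham a b) := by
    intro j a b
    have h1 : |y a j - y b j| ^ q ≤ ∑ j', |y a j' - y b j'| ^ q :=
      Finset.single_le_sum (f := fun j' => |y a j' - y b j'| ^ q)
        (fun j' _ => Real.rpow_nonneg (abs_nonneg _) _) (Finset.mem_univ j)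
    have h2 : |y a j - y b j| ^ q ≤ (D * s) ^ q * (U * ham a b ^ (q / 2)) :=
      h1.trans ((hup a b).trans
        (mul_le_mul_of_nonneg_left (hU a b) (Real.rpow_nonneg hDs _)))
    have h3 : (Lam * Real.sqrt (ham a b)) ^ q = (D * s) ^ q * (U * ham a b ^ (q / 2)) := by
      rw [Real.mul_rpow hLam0 (Real.sqrt_nonneg _), hLamq, Real.sqrt_eq_rpow,
        ← Real.rpow_mul (hham a b)]
      have : (1:ℝ) / 2 * q = q / 2 := by ring
      rw [this]
      ring
    rw [← h3] at h2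
    exact (Real.rpow_le_rpow_iff (abs_nonneg _)
      (mul_nonneg hLam0 (Real.sqrt_nonneg _)) hq0).mp h2
  -- concentration for each coordinate
  have hconc : ∀ j, ∑ a, ∑ b, |y a j - y b j| ^ q ≤ C * ((D * s) ^ q * U) := by
    intro j
    have := hC (fun a => y a j) Lam hLam0 (hlip j)
    rwa [hLamq] at this
  -- sum over the coordinates
  have hswap : ∑ a, ∑ b, ∑ j, |y a j - y b j| ^ q = ∑ j, ∑ a, ∑ b, |y a j - y b j| ^ q := by
    rw [Finset.sum_comm (s := (Finset.univ : Finset (Fin d)))]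
    refine Finset.sum_congr rfl fun a _ => ?_
    rw [Finset.sum_comm]
  have hupper : ∑ a, ∑ b, ∑ j, |y a j - y b j| ^ q ≤ d * (C * ((D * s) ^ q * U)) := by
    rw [hswap]
    calc ∑ j, ∑ a, ∑ b, |y a j - y b j| ^ q ≤ ∑ _j : Fin d, C * ((D * s) ^ q * U) :=
          Finset.sum_le_sum fun j _ => hconc j
      _ = d * (C * ((D * s) ^ q * U)) := by
          rw [Finset.sum_const, Finset.card_univ, Fintype.card_fin, nsmul_eq_mul]
  have hlower : s ^ q * M ≤ ∑ a, ∑ b, ∑ j, |y a j - y b j| ^ q := by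
    have hsq : 0 ≤ s ^ q := Real.rpow_nonneg hs.le _
    calc s ^ q * M ≤ s ^ q * ∑ a, ∑ b, ∑ e, |x a e - x b e| ^ q :=
          mul_le_mul_of_nonneg_left hM hsq
      _ = ∑ a, ∑ b, s ^ q * ∑ e, |x a e - x b e| ^ q := by
          rw [Finset.mul_sum]
          refine Finset.sum_congr rfl fun a _ => ?_
          rw [Finset.mul_sum]
      _ ≤ ∑ a, ∑ b, ∑ j, |y a j - y b j| ^ q :=
          Finset.sum_le_sum fun a _ => Finset.sum_le_sum fun b _ => hlow a b
  have hsq : 0 < s ^ q := Real.rpow_pos_of_pos hs _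
  have hfin : s ^ q * M ≤ s ^ q * (d * (C * (D ^ q * U))) := by
    calc s ^ q * M ≤ d * (C * ((D * s) ^ q * U)) := hlower.trans hupper
      _ = s ^ q * (d * (C * (D ^ q * U))) := by
          rw [Real.mul_rpow hD hs.le]
          ring
  exact le_of_mul_le_mul_left hfin hsq

end Vale.Agent.Lib.P249.H3cube
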