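import Vale.Agent.Lib.P249.helper3.CubeAsm

/-!
# P249, cube lower bound (helper53, report 1854): the statement in `PiLp` (backup copy, helper3)

`cube_lp`: for `2 ≤ p < ∞` and `K ≥ 1` the `2^K` cube points `cubePt p K a` of `ℓ_p` over the
cube are distinct, and every map `y` of them into `ℓ_p^d` with
`s * dist ≤ dist (y ·) (y ·) ≤ D * s * dist` has
`K ^ (p/4) ≤ 2 ^ (3p/2 + 3) * p ^ (3p/4) * (D ^ p * d)`.
`cube_fin`: the same with the points indexed by `Fin (2 ^ K)` inside `ℓ_p^(2^K)`.
Both are conditional on `X1Statement` and `ConcStatement` (to be discharged by the landed copies).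
-/

namespace Vale.Agent.Lib.P249.H3cube

open Finset

/-- the cube points as points of `ℓ_p` over the cube. -/
noncomputable def cubePt (p : ENNReal) (K : ℕ) (a : Fin K → Bool) :
    PiLp p (fun _ : Fin K → Bool => ℝ) :=
  WithLp.toLp p (pt K a)

lemma cubePt_apply (p : ENNReal) (K : ℕ) (a e : Fin K → Bool) : cubePt p K a e = pt K a e := rfl

lemma cubePt_injective (p : ENNReal) (K : ℕ) : Function.Injective (cubePt p K) := by
  intro a b hab
  have h1 : pt K a = pt K b := by
    funext e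
    have := congrArg (fun u : PiLp p (fun _ : Fin K → Bool => ℝ) => u e) hab
    simpa [cubePt_apply] using this
  exact H3x2.rad_injective K h1

lemma dist_eq {ι : Type*} [Fintype ι] (p : ENNReal) (hq : 0 < p.toReal)
    (u v : PiLp p (fun _ : ι => ℝ)) :
    dist u v = (∑ k, |u k - v k| ^ p.toReal) ^ (1 / p.toReal) := by
  rw [PiLp.dist_eq_sum hq]
  simp only [Real.dist_eq]

theorem cube_lp (hx1 : X1Statement) (hconc : ConcStatement) (p : ENNReal) [Fact (1 ≤ p)]
    (hp : p ≠ ⊤) (hp2 : 2 ≤ p) (K : ℕ) (hK : 1 ≤ K)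
    (d : ℕ) (y : (Fin K → Bool) → PiLp p (fun _ : Fin d => ℝ)) (s D : ℝ) (hs : 0 < s)
    (h : ∀ a b, s * dist (cubePt p K a) (cubePt p K b) ≤ dist (y a) (y b) ∧
        dist (y a) (y b) ≤ D * s * dist (cubePt p K a) (cubePt p K b)) :
    (K:ℝ) ^ (p.toReal / 4)
      ≤ 2 ^ (3 * p.toReal / 2 + 3) * p.toReal ^ (3 * p.toReal / 4) * (D ^ p.toReal * d) := by
  have hq2 : 2 ≤ p.toReal := by
    have := ENNReal.toReal_mono hp hp2
    simpa using this
  have hq0 : 0 < p.toReal := by linarith
  -- D ≥ 1 from two distinct points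
  have hD : 0 ≤ D := by
    let a0 : Fin K → Bool := fun _ => false
    let b0 : Fin K → Bool := fun _ => true
    have hne : a0 ≠ b0 := by
      intro hab
      have := congrFun hab ⟨0, hK⟩
      simp [a0, b0] at this
    have hpos : 0 < dist (cubePt p K a0) (cubePt p K b0) :=
      dist_pos.mpr (fun hh => hne (cubePt_injective p K hh))
    have h1 := (h a0 b0).1.trans (h a0 b0).2
    by_contra hneg
    rw [not_le] at hneg
    have : D * s * dist (cubePt p K a0) (cubePt p K b0) < 0 :=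
      mul_neg_of_neg_of_pos (mul_neg_of_neg_of_pos hneg hs) hpos
    have h2 : 0 ≤ s * dist (cubePt p K a0) (cubePt p K b0) := by positivity
    linarith
  have hSX : ∀ a b, 0 ≤ ∑ e, |pt K a e - pt K b e| ^ p.toReal :=
    fun a b => Finset.sum_nonneg fun e _ => Real.rpow_nonneg (abs_nonneg _) _
  have hSY : ∀ a b, 0 ≤ ∑ j, |y a j - y b j| ^ p.toReal :=
    fun a b => Finset.sum_nonneg fun e _ => Real.rpow_nonneg (abs_nonneg _) _
  have hroot : ∀ S : ℝ, 0 ≤ S → (S ^ (1 / p.toReal)) ^ p.toReal = S := by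
    intro S hS
    rw [← Real.rpow_mul hS, one_div, inv_mul_cancel₀ hq0.ne', Real.rpow_one]
  have hdx : ∀ a b, dist (cubePt p K a) (cubePt p K b)
      = (∑ e, |pt K a e - pt K b e| ^ p.toReal) ^ (1 / p.toReal) := by
    intro a b
    rw [dist_eq p hq0]
    rfl
  refine cube_real hx1 hconc p.toReal hq2 K hK d (fun a j => y a j) s D hs hD ?_ ?_
  · intro a b
    have h1 := (h a b).1
    rw [hdx, dist_eq p hq0] at h1
    have h2 := Real.rpow_le_rpow (by positivity) h1 hq0.le
    rw [Real.mul_rpow hs.le (Real.rpow_nonneg (hSX a b) _), hroot _ (hSX a b),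
      hroot _ (hSY a b)] at h2
    exact h2
  · intro a b
    have h1 := (h a b).2
    rw [hdx, dist_eq p hq0] at h1
    have h2 := Real.rpow_le_rpow (Real.rpow_nonneg (hSY a b) _) h1 hq0.le
    rw [Real.mul_rpow (mul_nonneg hD hs.le) (Real.rpow_nonneg (hSX a b) _), hroot _ (hSX a b),
      hroot _ (hSY a b)] at h2
    exact h2

/-- the same with the `2 ^ K` points indexed by `Fin (2 ^ K)` inside `ℓ_p^(2^K)`. -/
theorem cube_fin (hx1 : X1Statement) (hconc : ConcStatement) (p : ENNReal) [Fact (1 ≤ p)]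
    (hp : p ≠ ⊤) (hp2 : 2 ≤ p) (K : ℕ) (hK : 1 ≤ K) :
    ∃ x : Fin (2 ^ K) → PiLp p (fun _ : Fin (2 ^ K) => ℝ), Function.Injective x ∧
      ∀ (d : ℕ) (y : Fin (2 ^ K) → PiLp p (fun _ : Fin d => ℝ)) (s D : ℝ), 0 < s →
        (∀ i j, s * dist (x i) (x j) ≤ dist (y i) (y j) ∧
          dist (y i) (y j) ≤ D * s * dist (x i) (x j)) →
        (K:ℝ) ^ (p.toReal / 4)
          ≤ 2 ^ (3 * p.toReal / 2 + 3) * p.toReal ^ (3 * p.toReal / 4) * (D ^ p.toReal * d) := by
  have hq2 : 2 ≤ p.toReal := by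
    have := ENNReal.toReal_mono hp hp2
    simpa using this
  have hq0 : 0 < p.toReal := by linarith
  let E : (Fin K → Bool) ≃ Fin (2 ^ K) := Fintype.equivFinOfCardEq (by simp)
  let x : Fin (2 ^ K) → PiLp p (fun _ : Fin (2 ^ K) => ℝ) :=
    fun i => WithLp.toLp p (fun k => pt K (E.symm i) (E.symm k))
  have hxapp : ∀ i k, x i k = pt K (E.symm i) (E.symm k) := fun i k => rfl
  have hdist : ∀ i j, dist (x i) (x j) = dist (cubePt p K (E.symm i)) (cubePt p K (E.symm j)) := by
    intro i j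
    rw [dist_eq p hq0, dist_eq p hq0]
    congr 1
    simp only [hxapp, cubePt_apply]
    exact Equiv.sum_comp E.symm
      (fun e => |pt K (E.symm i) e - pt K (E.symm j) e| ^ p.toReal)
  refine ⟨x, ?_, ?_⟩
  · intro i j hij
    have h0 : dist (x i) (x j) = 0 := by rw [hij, dist_self]
    rw [hdist] at h0
    have h1 := cubePt_injective p K (dist_eq_zero.mp h0)
    exact E.symm.injective h1
  · intro d y s D hs h
    refine cube_lp hx1 hconc p hp hp2 K hK d (fun a => y (E a)) s D hs ?_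
    intro a b
    have := h (E a) (E b)
    rw [hdist] at this
    simpa using this

end Vale.Agent.Lib.P249.H3cube
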