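import Vale.Agent.Lib.P249.helper3.CubeAsm
import Vale.Agent.Lib.P249.helper69.X1

/-!
# P249, cube lower bound: `X1Statement` from helper69's landed `x1_upper` (helper3)
-/

namespace Vale.Agent.Lib.P249.H3cube

open Finset

theorem x1_statement : X1Statement := by
  intro K q hq a b
  have hq0 : 0 < q := by linarith
  have h := H69.x1_upper K a b q hq0
  have hham : ((univ.filter fun i => a i ≠ b i).card : ℝ) = (hammingDist a b : ℝ) := rfl
  rw [hham] at h
  have hsum : ∑ e : Fin K → Bool,
      |∑ i, ((if a i then (-1:ℝ) else 1) - (if b i then (-1:ℝ) else 1))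
        * (if e i then (-1:ℝ) else 1)| ^ q
      = ∑ ε : Fin K → Bool, |∑ i, (H69.sg (a i) - H69.sg (b i)) * H69.sg (ε i)| ^ q := rfl
  rw [hsum]
  refine h.trans ?_
  have he : (q / Real.exp 1) ^ (q / 2) ≤ q ^ (q / 2) := by
    apply Real.rpow_le_rpow (by positivity) _ (by positivity)
    have h1 : (1:ℝ) ≤ Real.exp 1 := Real.one_le_exp (by norm_num)
    exact div_le_self hq0.le h1
  have hnn : (0:ℝ) ≤ (hammingDist a b : ℝ) ^ (q / 2) := Real.rpow_nonneg (Nat.cast_nonneg _) _
  gcongr

end Vale.Agent.Lib.P249.H3cube
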