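import Mathlib

/-!
# P249 helper: the rank sum is at most the harmonic number

For a real function `f` on a finite type, `∑_b 1 / #{y | f y ≤ f b} ≤ H_n ≤ 1 + log n`.
(Step (A2) of the sensitivity bound: fixed `a`, `f = d(a, ·)`.)
-/

open Finset

namespace Vale.Agent.Lib.P249.H3

/-- Finset version: for every finite set `S`, `∑_{b ∈ S} 1 / #{y ∈ S | f y ≤ f b} ≤ H_{|S|}`.
Induction on `|S|`, removing a maximiser of `f`. -/
theorem rank_sum_le_harmonic_finset {ι : Type*} (f : ι → ℝ) :
    ∀ (n : ℕ) (S : Finset ι), S.card = n →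
      ∑ b ∈ S, (1 : ℝ) / ((S.filter (fun y => f y ≤ f b)).card : ℝ)
        ≤ ∑ t ∈ range n, 1 / ((t : ℝ) + 1) := by
  classical
  intro n
  induction n with
  | zero =>
    intro S hS
    rw [Finset.card_eq_zero] at hS
    subst hS
    simp
  | succ n ih =>
    intro S hS
    have hne : S.Nonempty := by
      rw [← Finset.card_pos]; omega
    obtain ⟨m, hm, hmax⟩ := S.exists_max_image f hne
    have hcard : (S.erase m).card = n := by
      rw [Finset.card_erase_of_mem hm, hS]; rfl
    have ih' := ih (S.erase m) hcard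
    rw [Finset.sum_range_succ, ← Finset.add_sum_erase S _ hm]
    have h1 : (1 : ℝ) / ((S.filter (fun y => f y ≤ f m)).card : ℝ) = 1 / ((n : ℝ) + 1) := by
      have hfil : S.filter (fun y => f y ≤ f m) = S := by
        apply Finset.filter_true_of_mem
        intro y hy
        exact hmax y hy
      rw [hfil, hS]
      push_cast
      ring
    rw [h1, add_comm]
    have h2 : ∑ b ∈ S.erase m, (1 : ℝ) / ((S.filter (fun y => f y ≤ f b)).card : ℝ)
        ≤ ∑ t ∈ range n, 1 / ((t : ℝ) + 1) := by
      refine le_trans (Finset.sum_le_sum ?_) ih'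
      intro b hb
      have hb' : b ∈ (S.erase m).filter (fun y => f y ≤ f b) := by
        rw [Finset.mem_filter]
        exact ⟨hb, le_refl _⟩
      have hpos : 0 < (((S.erase m).filter (fun y => f y ≤ f b)).card : ℝ) := by
        exact_mod_cast Finset.card_pos.mpr ⟨b, hb'⟩
      apply one_div_le_one_div_of_le hpos
      exact_mod_cast Finset.card_le_card
        (Finset.filter_subset_filter _ (Finset.erase_subset m S))
    linarith

/-- `∑_b 1 / #{y | f y ≤ f b} ≤ H_n` with `n = |ι|`. -/
theorem rank_sum_le_harmonic {ι : Type*} [Fintype ι] (f : ι → ℝ) :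
    ∑ b, (1 : ℝ) / ((univ.filter (fun y => f y ≤ f b)).card : ℝ)
      ≤ ∑ t ∈ range (Fintype.card ι), 1 / ((t : ℝ) + 1) :=
  rank_sum_le_harmonic_finset f (Fintype.card ι) univ Finset.card_univ

/-- `∑_b 1 / #{y | f y ≤ f b} ≤ 1 + log n` with `n = |ι|`. -/
theorem rank_sum_le_log {ι : Type*} [Fintype ι] [Nonempty ι] (f : ι → ℝ) :
    ∑ b, (1 : ℝ) / ((univ.filter (fun y => f y ≤ f b)).card : ℝ)
      ≤ 1 + Real.log (Fintype.card ι) := by
  refine (rank_sum_le_harmonic f).trans ?_
  have h := harmonic_le_one_add_log (Fintype.card ι)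
  have h2 : ∑ t ∈ range (Fintype.card ι), 1 / ((t : ℝ) + 1)
      = ((harmonic (Fintype.card ι) : ℚ) : ℝ) := by
    unfold harmonic
    push_cast
    apply Finset.sum_congr rfl
    intro t _
    rw [one_div]
  rw [h2]
  exact h

end Vale.Agent.Lib.P249.H3
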