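import Mathlib

namespace Vale.Agent.Lib.P249.H3knn

open Finset

theorem step_arith (p : ℝ) (hp : 1 ≤ p) (L : ℝ) (hL : 2 * (10 : ℝ) ^ p ≤ L) (k : ℕ) :
    (L⁻¹) ^ k * 2 ^ (k + 1) ≤ (2 * (1 / 10 : ℝ) ^ k) ^ p := by
  have hT : 0 < (10 : ℝ) ^ p := Real.rpow_pos_of_pos (by norm_num) _
  have hL0 : 0 < L := by linarith
  have e1 : (2 * (1 / 10 : ℝ) ^ k) ^ p = (2 : ℝ) ^ p * (((10 : ℝ) ^ p)⁻¹) ^ k := by
    rw [Real.mul_rpow (by norm_num) (by positivity)]
    congr 1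
    rw [← Real.rpow_pow_comm (by norm_num), one_div, Real.inv_rpow (by norm_num)]
  rw [e1]
  have h2 : (2 : ℝ) ≤ (2 : ℝ) ^ p := by
    have := Real.rpow_le_rpow_of_exponent_le (x := 2) (by norm_num) hp
    simpa using this
  have h3 : L⁻¹ ≤ (2 * (10 : ℝ) ^ p)⁻¹ := inv_anti₀ (by positivity) hL
  have h4 : (L⁻¹) ^ k ≤ ((2 * (10 : ℝ) ^ p)⁻¹) ^ k :=
    pow_le_pow_left₀ (inv_nonneg.2 hL0.le) h3 k
  have h5 : ((2 * (10 : ℝ) ^ p)⁻¹) ^ k * 2 ^ (k + 1) = 2 * (((10 : ℝ) ^ p)⁻¹) ^ k := by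
    rw [mul_inv, mul_pow, pow_succ]
    have : ((2 : ℝ)⁻¹) ^ k * 2 ^ k = 1 := by
      rw [← mul_pow]
      norm_num
    calc (2 : ℝ)⁻¹ ^ k * ((10 : ℝ) ^ p)⁻¹ ^ k * (2 ^ k * 2)
        = ((2 : ℝ)⁻¹ ^ k * 2 ^ k) * (2 * ((10 : ℝ) ^ p)⁻¹ ^ k) := by ring
      _ = 2 * (((10 : ℝ) ^ p)⁻¹) ^ k := by rw [this, one_mul]
  have h6 : 0 ≤ (((10 : ℝ) ^ p)⁻¹) ^ k := by positivity
  calc (L⁻¹) ^ k * 2 ^ (k + 1) ≤ ((2 * (10 : ℝ) ^ p)⁻¹) ^ k * 2 ^ (k + 1) :=
        mul_le_mul_of_nonneg_right h4 (by positivity)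
    _ = 2 * (((10 : ℝ) ^ p)⁻¹) ^ k := h5
    _ ≤ (2 : ℝ) ^ p * (((10 : ℝ) ^ p)⁻¹) ^ k := mul_le_mul_of_nonneg_right h2 h6

theorem meet_arith (p : ℝ) (hp : 1 ≤ p) (L : ℝ) (hL : 2 * (10 : ℝ) ^ p ≤ L) (c : ℝ) (hc : 0 ≤ c)
    (hcL : 2 * L ≤ c ^ p) (k : ℕ) :
    (L⁻¹) ^ (2 * k) * (2 * L) ^ (k + 1) ≤ (c * (1 / 5 : ℝ) ^ k) ^ p := by
  have hp0 : 0 ≤ p := by linarith
  have hT : 0 < (10 : ℝ) ^ p := Real.rpow_pos_of_pos (by norm_num) _
  have hF : 0 < (5 : ℝ) ^ p := Real.rpow_pos_of_pos (by norm_num) _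
  have hFT : (5 : ℝ) ^ p ≤ (10 : ℝ) ^ p := Real.rpow_le_rpow (by norm_num) (by norm_num) hp0
  have hL0 : 0 < L := by linarith
  have e1 : (c * (1 / 5 : ℝ) ^ k) ^ p = c ^ p * (((5 : ℝ) ^ p)⁻¹) ^ k := by
    rw [Real.mul_rpow hc (by positivity)]
    congr 1
    rw [← Real.rpow_pow_comm (by norm_num), one_div, Real.inv_rpow (by norm_num)]
  rw [e1]
  have e2 : (L⁻¹) ^ (2 * k) * (2 * L) ^ (k + 1) = (2 * L) * (2 * L⁻¹) ^ k := by
    simp only [inv_pow, mul_pow]
    field_simp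
    ring
  rw [e2]
  have h3 : 2 * L⁻¹ ≤ ((5 : ℝ) ^ p)⁻¹ := by
    rw [show ((5 : ℝ) ^ p)⁻¹ = 1 / (5 : ℝ) ^ p from (one_div _).symm, le_div_iff₀ hF]
    have : 2 * (5 : ℝ) ^ p ≤ L := by linarith
    calc 2 * L⁻¹ * (5 : ℝ) ^ p = (2 * (5 : ℝ) ^ p) * L⁻¹ := by ring
      _ ≤ L * L⁻¹ := mul_le_mul_of_nonneg_right this (inv_nonneg.2 hL0.le)
      _ = 1 := mul_inv_cancel₀ hL0.ne'
  have h4 : (2 * L⁻¹) ^ k ≤ (((5 : ℝ) ^ p)⁻¹) ^ k :=
    pow_le_pow_left₀ (by positivity) h3 k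
  exact mul_le_mul hcL h4 (by positivity) (le_trans (by positivity) hcL)

variable {X : Type*} [Fintype X] [DecidableEq X]

/-- Nearest-neighbour sets: for every centre `x` and every `K` there is a set of exactly
`min K |X|` points such that every point of the set is at least as close to `x` as every point
outside it. -/
theorem exists_nn (d : X → X → ℝ) (x : X) (K : ℕ) :
    ∃ S : Finset X, S.card = min K (Fintype.card X) ∧
      ∀ y, y ∉ S → ∀ z ∈ S, d x z ≤ d x y := by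
  induction K with
  | zero => exact ⟨∅, by simp, by simp⟩
  | succ K ih =>
    obtain ⟨S, hS, h2⟩ := ih
    by_cases hK : Fintype.card X ≤ K
    · refine ⟨S, ?_, h2⟩
      rw [hS]
      omega
    · have hlt : S.card < Fintype.card X := by
        rw [hS]
        omega
      have hne : (Finset.univ \ S).Nonempty := by
        by_contra hcon
        rw [Finset.not_nonempty_iff_eq_empty, Finset.sdiff_eq_empty_iff_subset] at hcon
        have := Finset.card_le_card hcon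
        rw [Finset.card_univ] at this
        omega
      obtain ⟨y0, hy0, hmin⟩ := Finset.exists_min_image (univ \ S) (d x) hne
      have hy0S : y0 ∉ S := by simpa using hy0
      refine ⟨insert y0 S, ?_, ?_⟩
      · rw [card_insert_of_notMem hy0S, hS]
        omega
      · intro y hy z hz
        rw [mem_insert] at hz
        have hyS : y ∉ S := fun h => hy (mem_insert_of_mem h)
        rcases hz with rfl | hz
        · exact hmin y (by simpa using hyS)
        · exact h2 y hyS z hz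

omit [DecidableEq X] in
/-- The transport lemma (Jensen): a probability weight `w` on pairs which is dominated by
`M * φ` and lives on pairs at distance at most `R` moves the mean of `g` by at most
`(M * R ^ p * T) ^ (1 / p)`, where `T` is the `φ`-weighted sum of the relative increments. -/
theorem transport (d : X → X → ℝ) (hd0 : ∀ x y, 0 ≤ d x y) (p : ℝ) (hp : 1 ≤ p)
    (φ : X → X → ℝ) (hφ0 : ∀ x y, 0 ≤ φ x y)
    (g : X → ℝ) (hg : ∀ x y, d x y = 0 → g x = g y)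
    (w : X → X → ℝ) (hw0 : ∀ x y, 0 ≤ w x y) (hw1 : ∑ x, ∑ y, w x y = 1)
    (M R : ℝ) (hM : 0 ≤ M) (hR : 0 ≤ R)
    (hsupp : ∀ x y, w x y ≠ 0 → d x y ≤ R)
    (hwφ : ∀ x y, w x y ≤ M * φ x y) :
    |∑ x, ∑ y, w x y * (g y - g x)| ^ p ≤
      M * R ^ p * ∑ x, ∑ y, φ x y * (|g x - g y| ^ p / d x y ^ p) := by
  have hp0 : 0 < p := by linarith
  -- step 1: triangle inequality
  have h1 : |∑ x, ∑ y, w x y * (g y - g x)| ≤ ∑ x, ∑ y, w x y * |g y - g x| := by
    refine (abs_sum_le_sum_abs _ _).trans (Finset.sum_le_sum fun x _ => ?_)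
    refine (abs_sum_le_sum_abs _ _).trans (Finset.sum_le_sum fun y _ => ?_)
    rw [abs_mul, abs_of_nonneg (hw0 x y)]
  -- step 2: Jensen
  have h2 : (∑ x, ∑ y, w x y * |g y - g x|) ^ p ≤ ∑ x, ∑ y, w x y * |g y - g x| ^ p := by
    have hJ := (convexOn_rpow hp).map_sum_le (t := (Finset.univ : Finset (X × X)))
      (w := fun e => w e.1 e.2) (p := fun e => |g e.2 - g e.1|)
      (fun e _ => hw0 e.1 e.2)
      (by rw [Fintype.sum_prod_type' (f := fun x y => w x y)]; exact hw1)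
      (fun e _ => Set.mem_Ici.2 (abs_nonneg _))
    simp only [smul_eq_mul] at hJ
    rw [Fintype.sum_prod_type' (f := fun x y => w x y * |g y - g x|),
      Fintype.sum_prod_type' (f := fun x y => w x y * |g y - g x| ^ p)] at hJ
    exact hJ
  -- step 3: termwise domination
  have h3 : ∑ x, ∑ y, w x y * |g y - g x| ^ p ≤
      M * R ^ p * ∑ x, ∑ y, φ x y * (|g x - g y| ^ p / d x y ^ p) := by
    rw [Finset.mul_sum]
    refine Finset.sum_le_sum fun x _ => ?_
    rw [Finset.mul_sum]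
    refine Finset.sum_le_sum fun y _ => ?_
    have hr0 : 0 ≤ |g x - g y| ^ p / d x y ^ p :=
      div_nonneg (Real.rpow_nonneg (abs_nonneg _) _) (Real.rpow_nonneg (hd0 x y) _)
    by_cases hw : w x y = 0
    · rw [hw, zero_mul]
      have hR0 : 0 ≤ R ^ p := Real.rpow_nonneg hR _
      have := hφ0 x y
      positivity
    · have hdR := hsupp x y hw
      rcases (hd0 x y).eq_or_lt with hd | hd
      · have hgxy := hg x y hd.symm
        rw [hgxy, sub_self, abs_zero, Real.zero_rpow hp0.ne', mul_zero]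
        simp only [zero_div, mul_zero, le_refl]
      · have hdp : 0 < d x y ^ p := Real.rpow_pos_of_pos hd _
        have hdRp : d x y ^ p ≤ R ^ p := Real.rpow_le_rpow hd.le hdR hp0.le
        have habs : |g y - g x| ^ p = (|g x - g y| ^ p / d x y ^ p) * d x y ^ p := by
          rw [abs_sub_comm, div_mul_cancel₀ _ hdp.ne']
        rw [habs]
        have hφ := hwφ x y
        calc w x y * (|g x - g y| ^ p / d x y ^ p * d x y ^ p)
            ≤ (M * φ x y) * (|g x - g y| ^ p / d x y ^ p * R ^ p) :=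
              mul_le_mul hφ (mul_le_mul_of_nonneg_left hdRp hr0)
                (mul_nonneg hr0 hdp.le) (mul_nonneg hM (hφ0 x y))
          _ = M * R ^ p * (φ x y * (|g x - g y| ^ p / d x y ^ p)) := by ring
  calc |∑ x, ∑ y, w x y * (g y - g x)| ^ p
      ≤ (∑ x, ∑ y, w x y * |g y - g x|) ^ p := Real.rpow_le_rpow (abs_nonneg _) h1 hp0.le
    _ ≤ _ := h2
    _ ≤ _ := h3

omit [DecidableEq X] in
/-- Claim 1: if some point near `j` is not among the `N` nearest neighbours of some point near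
`i`, then `N < |X|` and all `N`-neighbourhoods of points near `i` or `j` are small. -/
theorem claim1 (d : X → X → ℝ) (hd0 : ∀ x y, 0 ≤ d x y) (hsymm : ∀ x y, d x y = d y x)
    (htri : ∀ x y z, d x z ≤ d x y + d y z)
    (S : X → Finset X) (N : ℕ) (hS1 : ∀ x, (S x).card = min N (Fintype.card X))
    (hS2 : ∀ x y, y ∉ S x → ∀ z ∈ S x, d x z ≤ d x y)
    (i j : X) (σ : ℝ)
    (x0 y0 : X) (hx0 : d i x0 ≤ σ) (hy0 : d j y0 ≤ σ) (hnot : y0 ∉ S x0) :
    N < Fintype.card X ∧ (∀ x, (S x).card = N) ∧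
      ∀ z, (d i z ≤ σ ∨ d j z ≤ σ) → ∀ w ∈ S z, d z w ≤ 4 * σ + 2 * d i j := by
  have hN : N < Fintype.card X := by
    by_contra hcon
    have h1 := hS1 x0
    rw [min_eq_right (not_lt.1 hcon)] at h1
    have h2 := Finset.eq_univ_of_card _ h1
    exact hnot (h2 ▸ Finset.mem_univ y0)
  have hcard : ∀ x, (S x).card = N := fun x => by
    rw [hS1 x, min_eq_left hN.le]
  refine ⟨hN, hcard, ?_⟩
  have hρ : 0 ≤ d i j := hd0 i j
  -- every point of `S x0` is within `2σ + ρ` of `x0`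
  have hx0u : ∀ u ∈ S x0, d x0 u ≤ 2 * σ + d i j := by
    intro u hu
    have h1 := hS2 x0 y0 hnot u hu
    have h2 := htri x0 i y0
    have h3 := htri i j y0
    have h4 := hsymm x0 i
    linarith
  intro z hz w hw
  have hzx0 : d z x0 ≤ 2 * σ + d i j := by
    rcases hz with hz | hz
    · have h2 := htri z i x0
      have h4 := hsymm z i
      linarith
    · have h2 := htri z j x0
      have h3 := htri j i x0
      have h4 := hsymm z j
      have h5 := hsymm j i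
      linarith
  have hzu : ∀ u ∈ S x0, d z u ≤ 4 * σ + 2 * d i j := by
    intro u hu
    have h1 := hx0u u hu
    have h2 := htri z x0 u
    linarith
  by_contra hcon
  have hwx0 : w ∉ S x0 := fun h => hcon (hzu w h)
  have hnsub : ¬ S x0 ⊆ S z := by
    intro hsub
    have heq := Finset.eq_of_subset_of_card_le hsub (by rw [hcard, hcard])
    exact hwx0 (heq ▸ hw)
  obtain ⟨u, hu, huz⟩ := Finset.not_subset.1 hnsub
  have h1 := hS2 z u huz w hw
  exact hcon (le_trans h1 (hzu u hu))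

/-- One spreading step of the nearest-neighbour walk. -/
theorem spread (d : X → X → ℝ) (hd0 : ∀ x y, 0 ≤ d x y)
    (htri : ∀ x y z, d x z ≤ d x y + d y z) (p : ℝ) (hp : 1 ≤ p)
    (φ : X → X → ℝ) (hφ0 : ∀ x y, 0 ≤ φ x y)
    (g : X → ℝ) (hg : ∀ x y, d x y = 0 → g x = g y)
    (S : X → Finset X) (N : ℕ) (hN : 0 < N) (hcard : ∀ x, (S x).card = N)
    (c : X) (σ R : ℝ) (hR : 0 ≤ R) (hSR : ∀ z, d c z ≤ σ → ∀ w ∈ S z, d z w ≤ R)
    (μ : X → ℝ) (hμ0 : ∀ x, 0 ≤ μ x) (hμ1 : ∑ x, μ x = 1) (B : ℝ) (hμB : ∀ x, μ x ≤ B)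
    (hμs : ∀ x, μ x ≠ 0 → d c x ≤ σ)
    (M : ℝ) (hM : 0 ≤ M) (hMφ : ∀ x y, y ∈ S x → B / N ≤ M * φ x y) :
    ∃ μ' : X → ℝ, (∀ x, 0 ≤ μ' x) ∧ ∑ x, μ' x = 1 ∧ (∀ x, μ' x ≤ 1 / N) ∧
      (∀ x, μ' x ≠ 0 → d c x ≤ σ + R) ∧
      |∑ x, μ' x * g x - ∑ x, μ x * g x| ^ p ≤
        M * R ^ p * ∑ x, ∑ y, φ x y * (|g x - g y| ^ p / d x y ^ p) := by
  have hNr : (0 : ℝ) < N := by exact_mod_cast hN
  set w : X → X → ℝ := fun x y => μ x * (if y ∈ S x then (N : ℝ)⁻¹ else 0) with hw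
  have hw0 : ∀ x y, 0 ≤ w x y := by
    intro x y
    simp only [hw]
    split_ifs
    · exact mul_nonneg (hμ0 x) (inv_nonneg.2 hNr.le)
    · simp
  have hrow : ∀ x, ∑ y, w x y = μ x := by
    intro x
    simp only [hw]
    rw [← Finset.mul_sum, Finset.sum_ite_mem, Finset.univ_inter, Finset.sum_const, hcard,
      nsmul_eq_mul, mul_inv_cancel₀ hNr.ne', mul_one]
  have hw1 : ∑ x, ∑ y, w x y = 1 := by
    rw [Finset.sum_congr rfl (fun x _ => hrow x), hμ1]
  refine ⟨fun y => ∑ x, w x y, fun y => Finset.sum_nonneg fun x _ => hw0 x y, ?_, ?_, ?_, ?_⟩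
  · rw [Finset.sum_comm]
    exact hw1
  · intro y
    calc ∑ x, w x y ≤ ∑ x, μ x * (N : ℝ)⁻¹ := by
          refine Finset.sum_le_sum fun x _ => ?_
          simp only [hw]
          split_ifs
          · exact le_refl _
          · rw [mul_zero]
            exact mul_nonneg (hμ0 x) (inv_nonneg.2 hNr.le)
      _ = 1 / N := by rw [← Finset.sum_mul, hμ1, one_mul, one_div]
  · intro y hy
    obtain ⟨x, -, hx⟩ := Finset.exists_ne_zero_of_sum_ne_zero hy
    have hμx : μ x ≠ 0 := fun h => hx (by simp [hw, h])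
    have hyS : y ∈ S x := by
      by_contra h
      exact hx (by simp [hw, h])
    have h1 := hμs x hμx
    have h2 := hSR x h1 y hyS
    have h3 := htri c x y
    linarith
  · have hdiff : ∑ y, (∑ x, w x y) * g y - ∑ x, μ x * g x = ∑ x, ∑ y, w x y * (g y - g x) := by
      have e1 : ∑ y, (∑ x, w x y) * g y = ∑ x, ∑ y, w x y * g y := by
        rw [Finset.sum_comm]
        refine Finset.sum_congr rfl fun y _ => ?_
        rw [Finset.sum_mul]
      have e2 : ∑ x, μ x * g x = ∑ x, ∑ y, w x y * g x := by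
        refine Finset.sum_congr rfl fun x _ => ?_
        rw [← Finset.sum_mul, hrow]
      rw [e1, e2, ← Finset.sum_sub_distrib]
      refine Finset.sum_congr rfl fun x _ => ?_
      rw [← Finset.sum_sub_distrib]
      refine Finset.sum_congr rfl fun y _ => ?_
      ring
    rw [hdiff]
    refine transport d hd0 p hp φ hφ0 g hg w hw0 hw1 M R hM hR ?_ ?_
    · intro x y hxy
      have hμx : μ x ≠ 0 := fun h => hxy (by simp [hw, h])
      have hyS : y ∈ S x := by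
        by_contra h
        exact hxy (by simp [hw, h])
      exact hSR x (hμs x hμx) y hyS
    · intro x y
      by_cases hyS : y ∈ S x
      · have : w x y = μ x / N := by simp [hw, hyS, div_eq_mul_inv]
        rw [this]
        exact le_trans (div_le_div_of_nonneg_right (hμB x) hNr.le) (hMφ x y hyS)
      · have : w x y = 0 := by simp [hw, hyS]
        rw [this]
        exact mul_nonneg hM (hφ0 x y)

omit [DecidableEq X] in
/-- Meeting of the two clouds. -/
theorem meet (d : X → X → ℝ) (hd0 : ∀ x y, 0 ≤ d x y) (p : ℝ) (hp : 1 ≤ p)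
    (φ : X → X → ℝ) (hφ0 : ∀ x y, 0 ≤ φ x y)
    (g : X → ℝ) (hg : ∀ x y, d x y = 0 → g x = g y)
    (μ ν : X → ℝ) (hμ0 : ∀ x, 0 ≤ μ x) (hν0 : ∀ x, 0 ≤ ν x)
    (hμ1 : ∑ x, μ x = 1) (hν1 : ∑ x, ν x = 1) (B : ℝ)
    (hμB : ∀ x, μ x ≤ B) (hνB : ∀ x, ν x ≤ B)
    (M R : ℝ) (hM : 0 ≤ M) (hR : 0 ≤ R)
    (hsupp : ∀ x y, μ x ≠ 0 → ν y ≠ 0 → d x y ≤ R ∧ B * B ≤ M * φ x y) :
    |∑ x, ν x * g x - ∑ x, μ x * g x| ^ p ≤
      M * R ^ p * ∑ x, ∑ y, φ x y * (|g x - g y| ^ p / d x y ^ p) := by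
  set w : X → X → ℝ := fun x y => μ x * ν y with hw
  have hw0 : ∀ x y, 0 ≤ w x y := fun x y => mul_nonneg (hμ0 x) (hν0 y)
  have hw1 : ∑ x, ∑ y, w x y = 1 := by
    simp only [hw]
    rw [← Finset.sum_mul_sum, hμ1, hν1, one_mul]
  have hdiff : ∑ x, ν x * g x - ∑ x, μ x * g x = ∑ x, ∑ y, w x y * (g y - g x) := by
    have e1 : ∑ y, ν y * g y = ∑ x, ∑ y, w x y * g y := by
      simp only [hw]
      have : ∀ x, ∑ y, μ x * ν y * g y = μ x * ∑ y, ν y * g y := by
        intro x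
        rw [Finset.mul_sum]
        refine Finset.sum_congr rfl fun y _ => ?_
        ring
      rw [Finset.sum_congr rfl (fun x _ => this x), ← Finset.sum_mul, hμ1, one_mul]
    have e2 : ∑ x, μ x * g x = ∑ x, ∑ y, w x y * g x := by
      simp only [hw]
      refine Finset.sum_congr rfl fun x _ => ?_
      have : ∀ y, μ x * ν y * g x = ν y * (μ x * g x) := fun y => by ring
      rw [Finset.sum_congr rfl (fun y _ => this y), ← Finset.sum_mul, hν1, one_mul]
    rw [e1, e2, ← Finset.sum_sub_distrib]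
    refine Finset.sum_congr rfl fun x _ => ?_
    rw [← Finset.sum_sub_distrib]
    refine Finset.sum_congr rfl fun y _ => ?_
    ring
  rw [hdiff]
  refine transport d hd0 p hp φ hφ0 g hg w hw0 hw1 M R hM hR ?_ ?_
  · intro x y hxy
    have hμx : μ x ≠ 0 := fun h => hxy (by simp [hw, h])
    have hνy : ν y ≠ 0 := fun h => hxy (by simp [hw, h])
    exact (hsupp x y hμx hνy).1
  · intro x y
    by_cases hμx : μ x = 0
    · have : w x y = 0 := by simp [hw, hμx]
      rw [this]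
      exact mul_nonneg hM (hφ0 x y)
    · by_cases hνy : ν y = 0
      · have : w x y = 0 := by simp [hw, hνy]
        rw [this]
        exact mul_nonneg hM (hφ0 x y)
      · refine le_trans ?_ (hsupp x y hμx hνy).2
        exact mul_le_mul (hμB x) (hνB y) (hν0 y) (le_trans (hμ0 x) (hμB x))

end Vale.Agent.Lib.P249.H3knn
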