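import Vale.Agent.Lib.P249.helper3.KnnBase

namespace Vale.Agent.Lib.P249.H3knn

open Finset

variable {X : Type*} [Fintype X] [DecidableEq X]

/-- **Theorem A** (nearest-neighbour walk): the increment of `g` over any pair is controlled by
the `φ`-weighted sum `T` of the relative increments, with a constant `16 + c` that does not
depend on the number of points. -/
theorem knn_core (d : X → X → ℝ) (hd0 : ∀ x y, 0 ≤ d x y) (hself : ∀ x, d x x = 0)
    (hsymm : ∀ x y, d x y = d y x) (htri : ∀ x y z, d x z ≤ d x y + d y z)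
    (p : ℝ) (hp : 1 ≤ p) (L : ℕ) (hL : 2 * (10 : ℝ) ^ p ≤ L)
    (S : ℕ → X → Finset X) (hS1 : ∀ K x, (S K x).card = min K (Fintype.card X))
    (hS2 : ∀ K x y, y ∉ S K x → ∀ z ∈ S K x, d x z ≤ d x y)
    (φ : X → X → ℝ) (hφ0 : ∀ x y, 0 ≤ φ x y)
    (hφ : ∀ l, l < Fintype.card X → ∀ x y, y ∈ S (L ^ (l + 1)) x →
      ((2 * (L : ℝ))⁻¹) ^ (l + 1) ≤ φ x y)
    (g : X → ℝ) (hg : ∀ x y, d x y = 0 → g x = g y)
    (t c : ℝ) (ht : 0 ≤ t)
    (hT : ∑ x, ∑ y, φ x y * (|g x - g y| ^ p / d x y ^ p) ≤ t ^ p)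
    (hc : 0 ≤ c) (hcL : 2 * (L : ℝ) ≤ c ^ p) (i j : X) :
    |g i - g j| ≤ (16 + c) * d i j * t := by
  have hp0 : 0 < p := by linarith
  set ρ := d i j with hρ
  have hρ0 : 0 ≤ ρ := hd0 i j
  have hLr : (2 : ℝ) ≤ L := by
    have : (1 : ℝ) ≤ (10 : ℝ) ^ p := Real.one_le_rpow (by norm_num) (by linarith)
    linarith
  have hL2 : 2 ≤ L := by exact_mod_cast hLr
  have hL0 : (0 : ℝ) < L := by linarith
  set T := ∑ x, ∑ y, φ x y * (|g x - g y| ^ p / d x y ^ p) with hTdef
  have hT0 : 0 ≤ T := Finset.sum_nonneg fun x _ => Finset.sum_nonneg fun y _ =>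
    mul_nonneg (hφ0 x y)
      (div_nonneg (Real.rpow_nonneg (abs_nonneg _) _) (Real.rpow_nonneg (hd0 x y) _))
  set σ : ℕ → ℝ := fun k => ρ * (5 ^ k - 1) / 2 with hσ
  have hσk : ∀ k, σ k = ρ * (5 ^ k - 1) / 2 := fun k => rfl
  have root : ∀ a b : ℝ, 0 ≤ b → |a| ^ p ≤ b ^ p → |a| ≤ b := fun a b hb h =>
    (Real.rpow_le_rpow_iff (abs_nonneg a) hb hp0).1 h
  -- the meeting case
  have meetcase : ∀ k, k < Fintype.card X → ∀ μ ν : X → ℝ, (∀ x, 0 ≤ μ x) → (∀ x, 0 ≤ ν x) →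
      ∑ x, μ x = 1 → ∑ x, ν x = 1 →
      (∀ x, μ x ≤ ((L : ℝ)⁻¹) ^ k) → (∀ x, ν x ≤ ((L : ℝ)⁻¹) ^ k) →
      (∀ x, μ x ≠ 0 → d i x ≤ σ k) → (∀ x, ν x ≠ 0 → d j x ≤ σ k) →
      (∀ x y, d i x ≤ σ k → d j y ≤ σ k → y ∈ S (L ^ (k + 1)) x) →
      |∑ x, ν x * g x - ∑ x, μ x * g x| ≤ c * ρ * t := by
    intro k hk μ ν hμ0 hν0 hμ1 hν1 hμB hνB hμs hνs hLarge
    have hM : 0 ≤ ((L : ℝ)⁻¹) ^ (2 * k) * (2 * L) ^ (k + 1) := by positivity
    have hR : 0 ≤ ρ * 5 ^ k := by positivity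
    have h := meet d hd0 p hp φ hφ0 g hg μ ν hμ0 hν0 hμ1 hν1 (((L : ℝ)⁻¹) ^ k) hμB hνB
      (((L : ℝ)⁻¹) ^ (2 * k) * (2 * L) ^ (k + 1)) (ρ * 5 ^ k) hM hR ?_
    · have h2 := meet_arith p hp L hL c hc hcL k
      have h3 : ((L : ℝ)⁻¹) ^ (2 * k) * (2 * L) ^ (k + 1) * (ρ * 5 ^ k) ^ p * T ≤
          (c * ρ * t) ^ p := by
        calc ((L : ℝ)⁻¹) ^ (2 * k) * (2 * L) ^ (k + 1) * (ρ * 5 ^ k) ^ p * T
            ≤ (c * (1 / 5 : ℝ) ^ k) ^ p * (ρ * 5 ^ k) ^ p * t ^ p :=
              mul_le_mul (mul_le_mul_of_nonneg_right h2 (Real.rpow_nonneg hR _)) hT hT0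
                (mul_nonneg (Real.rpow_nonneg (by positivity) _) (Real.rpow_nonneg hR _))
          _ = (c * ρ * t) ^ p := by
              rw [← Real.mul_rpow (by positivity) hR, ← Real.mul_rpow (by positivity) ht]
              congr 1
              have h5 : (1 / 5 : ℝ) ^ k * 5 ^ k = 1 := by
                rw [← mul_pow]
                norm_num
              calc c * (1 / 5 : ℝ) ^ k * (ρ * 5 ^ k) * t
                  = c * ρ * t * ((1 / 5 : ℝ) ^ k * 5 ^ k) := by ring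
                _ = c * ρ * t := by rw [h5, mul_one]
      exact root _ _ (by positivity) (le_trans h h3)
    · intro x y hx hy
      have hxi := hμs x hx
      have hyj := hνs y hy
      refine ⟨?_, ?_⟩
      · have h1 := htri x i y
        have h2 := htri i j y
        have h3 := hsymm x i
        have h4 := hσk k
        have h5 : ρ * 5 ^ k = 2 * σ k + ρ := by rw [h4]; ring
        rw [h5]
        linarith
      · have h1 := hφ k hk x y (hLarge x y hxi hyj)
        have h2 : ((L : ℝ)⁻¹) ^ k * ((L : ℝ)⁻¹) ^ k =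
            ((L : ℝ)⁻¹) ^ (2 * k) * (2 * L) ^ (k + 1) * ((2 * (L : ℝ))⁻¹) ^ (k + 1) := by
          have h6 : (2 * (L : ℝ)) ^ (k + 1) * ((2 * (L : ℝ))⁻¹) ^ (k + 1) = 1 := by
            rw [← mul_pow, mul_inv_cancel₀ (by positivity), one_pow]
          rw [mul_assoc, h6, mul_one, ← pow_add]
          congr 1
          ring
        rw [h2]
        exact mul_le_mul_of_nonneg_left h1 hM
  -- the recursion
  have key : ∀ m k, k < Fintype.card X → Fintype.card X ≤ k + m + 1 →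
      ∀ μ ν : X → ℝ, (∀ x, 0 ≤ μ x) → (∀ x, 0 ≤ ν x) → ∑ x, μ x = 1 → ∑ x, ν x = 1 →
      (∀ x, μ x ≤ ((L : ℝ)⁻¹) ^ k) → (∀ x, ν x ≤ ((L : ℝ)⁻¹) ^ k) →
      (∀ x, μ x ≠ 0 → d i x ≤ σ k) → (∀ x, ν x ≠ 0 → d j x ≤ σ k) →
      |∑ x, ν x * g x - ∑ x, μ x * g x| ≤ (16 * (1 / 2 : ℝ) ^ k + c) * ρ * t := by
    intro m
    induction m with
    | zero =>
      intro k hk hkm μ ν hμ0 hν0 hμ1 hν1 hμB hνB hμs hνs
      by_cases hLarge : ∀ x y, d i x ≤ σ k → d j y ≤ σ k → y ∈ S (L ^ (k + 1)) x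
      · refine le_trans (meetcase k hk μ ν hμ0 hν0 hμ1 hν1 hμB hνB hμs hνs hLarge) ?_
        have : 0 ≤ 16 * (1 / 2 : ℝ) ^ k * ρ * t := by positivity
        nlinarith
      · exfalso
        push Not at hLarge
        obtain ⟨x0, y0, hx0, hy0, hnot⟩ := hLarge
        obtain ⟨hN, -, -⟩ := claim1 d hd0 hsymm htri (S (L ^ (k + 1))) (L ^ (k + 1))
          (fun x => hS1 _ x) (fun x y => hS2 _ x y) i j (σ k) x0 y0 hx0 hy0 hnot
        have h1 : k + 1 < 2 ^ (k + 1) := Nat.lt_two_pow_self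
        have h2 : 2 ^ (k + 1) ≤ L ^ (k + 1) := Nat.pow_le_pow_left hL2 _
        omega
    | succ m ih =>
      intro k hk hkm μ ν hμ0 hν0 hμ1 hν1 hμB hνB hμs hνs
      by_cases hLarge : ∀ x y, d i x ≤ σ k → d j y ≤ σ k → y ∈ S (L ^ (k + 1)) x
      · refine le_trans (meetcase k hk μ ν hμ0 hν0 hμ1 hν1 hμB hνB hμs hνs hLarge) ?_
        have : 0 ≤ 16 * (1 / 2 : ℝ) ^ k * ρ * t := by positivity
        nlinarith
      · push Not at hLarge
        obtain ⟨x0, y0, hx0, hy0, hnot⟩ := hLarge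
        obtain ⟨hN, hcard, hball⟩ := claim1 d hd0 hsymm htri (S (L ^ (k + 1))) (L ^ (k + 1))
          (fun x => hS1 _ x) (fun x y => hS2 _ x y) i j (σ k) x0 y0 hx0 hy0 hnot
        have hk1 : k + 1 < Fintype.card X := by
          have h1 : k + 1 < 2 ^ (k + 1) := Nat.lt_two_pow_self
          have h2 : 2 ^ (k + 1) ≤ L ^ (k + 1) := Nat.pow_le_pow_left hL2 _
          omega
        have hNpos : 0 < L ^ (k + 1) := by positivity
        set R := 4 * σ k + 2 * ρ with hRdef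
        have hR2 : R = 2 * ρ * 5 ^ k := by rw [hRdef, hσk]; ring
        have hR0 : 0 ≤ R := by rw [hR2]; positivity
        set M := ((L : ℝ)⁻¹) ^ k * 2 ^ (k + 1) with hMdef
        have hM0 : 0 ≤ M := by positivity
        have hMφ : ∀ x y, y ∈ S (L ^ (k + 1)) x →
            ((L : ℝ)⁻¹) ^ k / ((L ^ (k + 1) : ℕ) : ℝ) ≤ M * φ x y := by
          intro x y hy
          have h1 := hφ k hk x y hy
          have h2 : ((L : ℝ)⁻¹) ^ k / ((L ^ (k + 1) : ℕ) : ℝ) =
              M * ((2 * (L : ℝ))⁻¹) ^ (k + 1) := by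
            rw [hMdef]
            push_cast
            rw [mul_inv, mul_pow, div_eq_mul_inv, ← inv_pow]
            have h6 : (2 : ℝ) ^ (k + 1) * ((2 : ℝ)⁻¹) ^ (k + 1) = 1 := by
              rw [← mul_pow, mul_inv_cancel₀ (by norm_num), one_pow]
            calc ((L : ℝ)⁻¹) ^ k * ((L : ℝ)⁻¹) ^ (k + 1)
                = ((L : ℝ)⁻¹) ^ k * ((2 : ℝ) ^ (k + 1) * ((2 : ℝ)⁻¹) ^ (k + 1)) *
                    ((L : ℝ)⁻¹) ^ (k + 1) := by rw [h6, mul_one]
              _ = ((L : ℝ)⁻¹) ^ k * 2 ^ (k + 1) * (((2 : ℝ)⁻¹) ^ (k + 1) *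
                    ((L : ℝ)⁻¹) ^ (k + 1)) := by ring
          rw [h2]
          exact mul_le_mul_of_nonneg_left h1 hM0
        obtain ⟨μ', hμ'0, hμ'1, hμ'B, hμ's, hμ'd⟩ := spread d hd0 htri p hp φ hφ0 g hg
          (S (L ^ (k + 1))) (L ^ (k + 1)) hNpos hcard i (σ k) R hR0
          (fun z hz => hball z (Or.inl hz)) μ hμ0 hμ1 (((L : ℝ)⁻¹) ^ k) hμB hμs M hM0 hMφ
        obtain ⟨ν', hν'0, hν'1, hν'B, hν's, hν'd⟩ := spread d hd0 htri p hp φ hφ0 g hg
          (S (L ^ (k + 1))) (L ^ (k + 1)) hNpos hcard j (σ k) R hR0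
          (fun z hz => hball z (Or.inr hz)) ν hν0 hν1 (((L : ℝ)⁻¹) ^ k) hνB hνs M hM0 hMφ
        have hstep : M * R ^ p * T ≤ (4 * ρ * (1 / 2 : ℝ) ^ k * t) ^ p := by
          have h2 := step_arith p hp L hL k
          calc M * R ^ p * T ≤ (2 * (1 / 10 : ℝ) ^ k) ^ p * R ^ p * t ^ p :=
                mul_le_mul (mul_le_mul_of_nonneg_right h2 (Real.rpow_nonneg hR0 _)) hT hT0
                  (mul_nonneg (Real.rpow_nonneg (by positivity) _) (Real.rpow_nonneg hR0 _))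
            _ = (4 * ρ * (1 / 2 : ℝ) ^ k * t) ^ p := by
                rw [← Real.mul_rpow (by positivity) hR0, ← Real.mul_rpow (by positivity) ht]
                congr 1
                rw [hR2]
                have h5 : (1 / 10 : ℝ) ^ k * 5 ^ k = (1 / 2 : ℝ) ^ k := by
                  rw [← mul_pow]
                  norm_num
                calc 2 * (1 / 10 : ℝ) ^ k * (2 * ρ * 5 ^ k) * t
                    = 4 * ρ * ((1 / 10 : ℝ) ^ k * 5 ^ k) * t := by ring
                  _ = 4 * ρ * (1 / 2 : ℝ) ^ k * t := by rw [h5]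
        have hB0 : 0 ≤ 4 * ρ * (1 / 2 : ℝ) ^ k * t := by positivity
        have hμstep := root _ _ hB0 (le_trans hμ'd hstep)
        have hνstep := root _ _ hB0 (le_trans hν'd hstep)
        have hcast : (1 : ℝ) / ((L ^ (k + 1) : ℕ) : ℝ) = ((L : ℝ)⁻¹) ^ (k + 1) := by
          push_cast
          rw [one_div, inv_pow]
        have hσ1 : σ k + R = σ (k + 1) := by
          rw [hRdef, hσk, hσk, pow_succ]
          ring
        have hrec := ih (k + 1) hk1 (by omega) μ' ν' hμ'0 hν'0 hμ'1 hν'1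
          (fun x => hcast ▸ hμ'B x) (fun x => hcast ▸ hν'B x)
          (fun x hx => hσ1 ▸ hμ's x hx) (fun x hx => hσ1 ▸ hν's x hx)
        have e : ∑ x, ν x * g x - ∑ x, μ x * g x =
            -(∑ x, ν' x * g x - ∑ x, ν x * g x) + (∑ x, ν' x * g x - ∑ x, μ' x * g x) +
              (∑ x, μ' x * g x - ∑ x, μ x * g x) := by ring
        rw [e]
        have h1 := abs_add_three (-(∑ x, ν' x * g x - ∑ x, ν x * g x))
          (∑ x, ν' x * g x - ∑ x, μ' x * g x) (∑ x, μ' x * g x - ∑ x, μ x * g x)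
        rw [abs_neg] at h1
        have e2 : (16 * (1 / 2 : ℝ) ^ (k + 1) + c) * ρ * t =
            8 * (1 / 2 : ℝ) ^ k * ρ * t + c * ρ * t := by
          rw [pow_succ]
          ring
        rw [e2] at hrec
        have e3 : (16 * (1 / 2 : ℝ) ^ k + c) * ρ * t =
            4 * ρ * (1 / 2 : ℝ) ^ k * t + (8 * (1 / 2 : ℝ) ^ k * ρ * t + c * ρ * t) +
              4 * ρ * (1 / 2 : ℝ) ^ k * t := by ring
        rw [e3]
        linarith
  -- start of the walk: the two point masses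
  have hX : 0 < Fintype.card X := Fintype.card_pos_iff.2 ⟨i⟩
  have hfin := key (Fintype.card X - 1) 0 hX (by omega)
    (fun x => if x = i then 1 else 0) (fun x => if x = j then 1 else 0)
    (fun x => by split_ifs <;> norm_num) (fun x => by split_ifs <;> norm_num)
    (by simp) (by simp)
    (fun x => by split_ifs <;> norm_num) (fun x => by split_ifs <;> norm_num)
    (fun x hx => by
      have hxi : x = i := by
        by_contra h
        exact hx (by simp [h])
      rw [hxi, hself, hσk]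
      simp)
    (fun x hx => by
      have hxj : x = j := by
        by_contra h
        exact hx (by simp [h])
      rw [hxj, hself, hσk]
      simp)
  have e4 : ∑ x, (if x = j then (1 : ℝ) else 0) * g x = g j := by simp
  have e5 : ∑ x, (if x = i then (1 : ℝ) else 0) * g x = g i := by simp
  rw [e4, e5, abs_sub_comm] at hfin
  simpa using hfin

theorem geom_half (n : ℕ) : ∑ l ∈ Finset.range n, (1 / 2 : ℝ) ^ (l + 1) = 1 - (1 / 2 : ℝ) ^ n := by
  induction n with
  | zero => simp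
  | succ n ih =>
    rw [Finset.sum_range_succ, ih, pow_succ]
    ring

/-- **Total pair sensitivity without logarithm.** For `n` points of `ℓ_q^m` there are
coordinate weights `s k ≥ 0` with `|x_a(k) - x_b(k)|^q ≤ s k * ‖x_a - x_b‖_q^q` for all pairs and
`∑ k, s k ≤ 76 ^ q * n`. -/
theorem sens_knn (q : ℝ) (hq : 1 ≤ q) :
    ∀ (n m : ℕ), 2 ≤ n → ∀ x : Fin n → Fin m → ℝ,
      ∃ s : Fin m → ℝ, (∀ k, 0 ≤ s k) ∧
        (∀ k a b, |x a k - x b k| ^ q ≤ s k * ∑ k', |x a k' - x b k'| ^ q) ∧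
        ∑ k, s k ≤ (76 : ℝ) ^ q * n := by
  intro n m _ x
  have hq0 : 0 < q := by linarith
  set v : Fin n → Fin n → ℝ := fun a b => ∑ k', |x a k' - x b k'| ^ q with hv
  have hv0 : ∀ a b, 0 ≤ v a b := fun a b =>
    Finset.sum_nonneg fun k _ => Real.rpow_nonneg (abs_nonneg _) _
  set d : Fin n → Fin n → ℝ := fun a b => (v a b) ^ (1 / q) with hd
  have hd0 : ∀ a b, 0 ≤ d a b := fun a b => Real.rpow_nonneg (hv0 a b) _
  have hdq : ∀ a b, d a b ^ q = v a b := by
    intro a b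
    simp only [hd]
    rw [one_div, Real.rpow_inv_rpow (hv0 a b) hq0.ne']
  have hself : ∀ a, d a a = 0 := by
    intro a
    have h0 : v a a = 0 := by
      simp only [hv, sub_self, abs_zero]
      rw [Real.zero_rpow hq0.ne']
      simp
    simp only [hd]
    rw [h0, Real.zero_rpow (by positivity)]
  have hsymm : ∀ a b, d a b = d b a := by
    intro a b
    have h0 : v a b = v b a := by
      simp only [hv]
      refine Finset.sum_congr rfl fun k _ => ?_
      rw [abs_sub_comm]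
    simp only [hd]
    rw [h0]
  have htri : ∀ a b c, d a c ≤ d a b + d b c := by
    intro a b c
    have h := Real.Lp_add_le Finset.univ (fun k => x a k - x b k) (fun k => x b k - x c k) hq
    simp only [sub_add_sub_cancel] at h
    exact h
  set L : ℕ := ⌈2 * (10 : ℝ) ^ q⌉₊ with hLdef
  have hL : 2 * (10 : ℝ) ^ q ≤ L := Nat.le_ceil _
  have h10 : (1 : ℝ) ≤ (10 : ℝ) ^ q := Real.one_le_rpow (by norm_num) (by linarith)
  have hL0 : (0 : ℝ) < L := by linarith
  have hLup : (L : ℝ) ≤ 3 * (10 : ℝ) ^ q := by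
    have := Nat.ceil_lt_add_one (show (0 : ℝ) ≤ 2 * (10 : ℝ) ^ q by positivity)
    linarith
  choose S hS1 hS2 using fun (K : ℕ) (a : Fin n) => exists_nn d a K
  set φ : Fin n → Fin n → ℝ := fun a b =>
    ∑ l ∈ Finset.range n, ((2 * (L : ℝ))⁻¹) ^ (l + 1) *
      (if b ∈ S (L ^ (l + 1)) a then (1 : ℝ) else 0) with hφdef
  have hterm0 : ∀ a b l, 0 ≤ ((2 * (L : ℝ))⁻¹) ^ (l + 1) *
      (if b ∈ S (L ^ (l + 1)) a then (1 : ℝ) else 0) := by
    intro a b l
    split_ifs
    · positivity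
    · simp
  have hφ0 : ∀ a b, 0 ≤ φ a b := fun a b => Finset.sum_nonneg fun l _ => hterm0 a b l
  have hφ : ∀ l, l < Fintype.card (Fin n) → ∀ a b, b ∈ S (L ^ (l + 1)) a →
      ((2 * (L : ℝ))⁻¹) ^ (l + 1) ≤ φ a b := by
    intro l hl a b hb
    rw [Fintype.card_fin] at hl
    have h := Finset.single_le_sum (f := fun l => ((2 * (L : ℝ))⁻¹) ^ (l + 1) *
      (if b ∈ S (L ^ (l + 1)) a then (1 : ℝ) else 0)) (fun l _ => hterm0 a b l)
      (Finset.mem_range.2 hl)
    simp only [hb, if_true, mul_one] at h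
    exact h
  have hφsum : ∀ a, ∑ b, φ a b ≤ 1 := by
    intro a
    simp only [hφdef]
    rw [Finset.sum_comm]
    calc ∑ l ∈ Finset.range n, ∑ b, ((2 * (L : ℝ))⁻¹) ^ (l + 1) *
          (if b ∈ S (L ^ (l + 1)) a then (1 : ℝ) else 0)
        ≤ ∑ l ∈ Finset.range n, (1 / 2 : ℝ) ^ (l + 1) := by
          refine Finset.sum_le_sum fun l _ => ?_
          rw [← Finset.mul_sum, Finset.sum_ite_mem, Finset.univ_inter, Finset.sum_const,
            nsmul_eq_mul, mul_one]
          have hc1 : ((S (L ^ (l + 1)) a).card : ℝ) ≤ (L : ℝ) ^ (l + 1) := by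
            have := hS1 (L ^ (l + 1)) a
            have h2 : (S (L ^ (l + 1)) a).card ≤ L ^ (l + 1) := by
              rw [this]
              exact min_le_left _ _
            exact_mod_cast h2
          have hc2 : ((2 * (L : ℝ))⁻¹) ^ (l + 1) * (L : ℝ) ^ (l + 1) = (1 / 2 : ℝ) ^ (l + 1) := by
            rw [← mul_pow]
            congr 1
            field_simp
          rw [← hc2]
          exact mul_le_mul_of_nonneg_left hc1 (by positivity)
      _ ≤ 1 := by
          rw [geom_half]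
          have : (0 : ℝ) ≤ (1 / 2 : ℝ) ^ n := by positivity
          linarith
  -- the constant
  set c : ℝ := (2 * (L : ℝ)) ^ (1 / q) with hcdef
  have hc0 : 0 ≤ c := Real.rpow_nonneg (by positivity) _
  have hcq : c ^ q = 2 * (L : ℝ) := by
    simp only [hcdef]
    rw [one_div, Real.rpow_inv_rpow (by positivity) hq0.ne']
  have hc60 : c ≤ 60 := by
    have h1 : (2 * (L : ℝ)) ≤ 6 * (10 : ℝ) ^ q := by linarith
    have h2 : c ≤ (6 * (10 : ℝ) ^ q) ^ (1 / q) :=
      Real.rpow_le_rpow (by positivity) h1 (by positivity)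
    have h3 : (6 * (10 : ℝ) ^ q) ^ (1 / q) = (6 : ℝ) ^ (1 / q) * 10 := by
      rw [Real.mul_rpow (by norm_num) (by positivity), one_div,
        Real.rpow_rpow_inv (by norm_num) hq0.ne']
    have h4 : (6 : ℝ) ^ (1 / q) ≤ (6 : ℝ) ^ (1 : ℝ) :=
      Real.rpow_le_rpow_of_exponent_le (by norm_num) (by
        rw [div_le_iff₀ hq0]
        linarith)
    rw [Real.rpow_one] at h4
    rw [h3] at h2
    linarith
  set C : ℝ := 16 + c with hCdef
  have hC0 : 0 ≤ C := by positivity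
  set T : Fin m → ℝ := fun k =>
    ∑ a, ∑ b, φ a b * (|x a k - x b k| ^ q / d a b ^ q) with hTdef
  have hT0 : ∀ k, 0 ≤ T k := fun k =>
    Finset.sum_nonneg fun a _ => Finset.sum_nonneg fun b _ =>
      mul_nonneg (hφ0 a b)
        (div_nonneg (Real.rpow_nonneg (abs_nonneg _) _) (Real.rpow_nonneg (hd0 a b) _))
  refine ⟨fun k => C ^ q * T k, fun k => mul_nonneg (Real.rpow_nonneg hC0 _) (hT0 k), ?_, ?_⟩
  · intro k a b
    have hg : ∀ a b, d a b = 0 → x a k = x b k := by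
      intro a b hab
      have h0 : v a b = 0 := by
        rw [← hdq a b, hab, Real.zero_rpow hq0.ne']
      have h1 := (Finset.sum_eq_zero_iff_of_nonneg
        (fun k _ => Real.rpow_nonneg (abs_nonneg (x a k - x b k)) q)).1 h0 k (Finset.mem_univ k)
      have h2 : |x a k - x b k| = 0 := by
        by_contra hne
        have hpos : 0 < |x a k - x b k| := lt_of_le_of_ne (abs_nonneg _) (Ne.symm hne)
        have := Real.rpow_pos_of_pos hpos q
        linarith
      have h3 := abs_eq_zero.1 h2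
      linarith
    have ht0 : 0 ≤ (T k) ^ (1 / q) := Real.rpow_nonneg (hT0 k) _
    have htq : ((T k) ^ (1 / q)) ^ q = T k := by
      rw [one_div, Real.rpow_inv_rpow (hT0 k) hq0.ne']
    have hmain := knn_core d hd0 hself hsymm htri q hq L hL S hS1 hS2 φ hφ0 hφ
      (fun a => x a k) hg ((T k) ^ (1 / q)) c ht0 (le_of_eq htq.symm) hc0 (le_of_eq hcq.symm) a b
    have h5 : |x a k - x b k| ^ q ≤ (C * d a b * (T k) ^ (1 / q)) ^ q :=
      Real.rpow_le_rpow (abs_nonneg _) hmain hq0.le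
    rw [Real.mul_rpow (mul_nonneg hC0 (hd0 a b)) ht0, Real.mul_rpow hC0 (hd0 a b), htq,
      hdq] at h5
    calc |x a k - x b k| ^ q ≤ C ^ q * v a b * T k := h5
      _ = C ^ q * T k * ∑ k', |x a k' - x b k'| ^ q := by
          simp only [hv]
          ring
  · have hsumT : ∑ k, T k ≤ n := by
      simp only [hTdef]
      rw [Finset.sum_comm]
      calc ∑ a, ∑ k, ∑ b, φ a b * (|x a k - x b k| ^ q / d a b ^ q)
          ≤ ∑ a : Fin n, (1 : ℝ) := by
            refine Finset.sum_le_sum fun a _ => ?_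
            rw [Finset.sum_comm]
            refine le_trans (Finset.sum_le_sum fun b _ => ?_) (hφsum a)
            rw [← Finset.mul_sum, ← Finset.sum_div, hdq]
            have : (∑ k, |x a k - x b k| ^ q) / v a b ≤ 1 := div_self_le_one _
            calc φ a b * ((∑ k, |x a k - x b k| ^ q) / v a b) ≤ φ a b * 1 :=
                  mul_le_mul_of_nonneg_left this (hφ0 a b)
              _ = φ a b := mul_one _
        _ = n := by simp
    have hC76 : C ^ q ≤ (76 : ℝ) ^ q :=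
      Real.rpow_le_rpow hC0 (by rw [hCdef]; linarith) hq0.le
    have hn0 : (0 : ℝ) ≤ n := Nat.cast_nonneg n
    calc ∑ k, C ^ q * T k = C ^ q * ∑ k, T k := by rw [Finset.mul_sum]
      _ ≤ C ^ q * n := mul_le_mul_of_nonneg_left hsumT (Real.rpow_nonneg hC0 _)
      _ ≤ (76 : ℝ) ^ q * n := mul_le_mul_of_nonneg_right hC76 hn0

end Vale.Agent.Lib.P249.H3knn
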