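import Vale.Agent.Lib.P249.helper3.LpReduce
import Vale.Agent.Lib.P249.helper3.KnnSens
import Vale.Agent.Lib.P249.helper21.LinEps

namespace Vale.Agent.Lib.P249.H3lp

open MeasureTheory

variable {α : Type*} [MeasurableSpace α]

/-- **Dimension reduction for `n` points of an arbitrary `L_p(μ)`**, `1 ≤ p < ∞`: they embed
into `ℓ_p^d` with distortion `1 + ε` and `d ≤ 1156 * 76^p / ε^2 * n * log n`. -/
theorem lp_measure_nlogn (p : ENNReal) [Fact (1 ≤ p)] (hp : p ≠ ⊤) (μ : Measure α)
    (ε : ℝ) (hε : 0 < ε) (hε1 : ε ≤ 1) (n : ℕ) (hn : 2 ≤ n) (f : Fin n → Lp ℝ p μ) :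
    ∃ (d : ℕ) (y : Fin n → PiLp p (fun _ : Fin d => ℝ)),
      (d : ℝ) ≤ 1156 * 76 ^ p.toReal / ε ^ 2 * n * Real.log n ∧
      ∀ i j, dist (f i) (f j) ≤ dist (y i) (y j) ∧
        dist (y i) (y j) ≤ (1 + ε) * dist (f i) (f j) := by
  classical
  have hp1 : (1 : ENNReal) ≤ p := Fact.out
  have hq1 : 1 ≤ p.toReal := by
    have := ENNReal.toReal_mono hp hp1
    simpa using this
  -- a positive lower bound for the nonzero distances
  obtain ⟨m0, hm0, hmin⟩ : ∃ m0 : ℝ, 0 < m0 ∧ ∀ i j, f i ≠ f j → m0 ≤ dist (f i) (f j) := by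
    set P : Finset (Fin n × Fin n) := Finset.univ.filter (fun e => f e.1 ≠ f e.2) with hP
    by_cases hne : P.Nonempty
    · refine ⟨P.inf' hne (fun e => dist (f e.1) (f e.2)), ?_, ?_⟩
      · rw [Finset.lt_inf'_iff]
        intro e he
        exact dist_pos.2 (Finset.mem_filter.1 he).2
      · intro i j hij
        exact Finset.inf'_le (fun e : Fin n × Fin n => dist (f e.1) (f e.2))
          (Finset.mem_filter.2 ⟨Finset.mem_univ (i, j), hij⟩)
    · refine ⟨1, one_pos, fun i j hij => ?_⟩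
      exact absurd ⟨(i, j), Finset.mem_filter.2 ⟨Finset.mem_univ _, hij⟩⟩ hne
  -- approximation by simple functions, the same approximation for equal points
  set δ : ℝ := ε / 16 * m0 with hδ
  have hδ0 : 0 < δ := by positivity
  have hdense := Lp.simpleFunc.denseRange (E := ℝ) (μ := μ) hp
  choose G hG using fun h : Lp ℝ p μ => hdense.exists_dist_lt h hδ0
  set g : Fin n → Lp.simpleFunc ℝ p μ := fun i => G (f i) with hg
  obtain ⟨m, x, hx⟩ := exists_lp_points p hp μ g
  -- sampling of coordinates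
  have h76 : (76 : ℝ) ≤ (76 : ℝ) ^ p.toReal := by
    have := Real.rpow_le_rpow_of_exponent_le (by norm_num : (1 : ℝ) ≤ 76) hq1
    simpa using this
  obtain ⟨d, κ, c, hd, hy⟩ := Vale.Agent.Lib.P249.H21.lin_eps_of_sens p hp
    ((76 : ℝ) ^ p.toReal) 0 (by linarith) le_rfl
    (fun n m hn x => by
      obtain ⟨s, hs0, hs, hS⟩ :=
        Vale.Agent.Lib.P249.H3knn.sens_knn p.toReal hq1 n m hn (fun i k => x i k)
      refine ⟨s, hs0, hs, ?_⟩
      rw [Real.rpow_zero, mul_one]
      exact hS)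
    (ε / 2) (by positivity) (by linarith) n m hn x
  have h8 : 0 < 1 - ε / 8 := by linarith
  set lam : ℝ := 1 / (1 - ε / 8) with hlam
  have hlam0 : 0 < lam := by positivity
  refine ⟨d, fun i => lam • (WithLp.toLp p (fun l => c l * x i (κ l)) :
    PiLp p (fun _ : Fin d => ℝ)), ?_, ?_⟩
  · -- the dimension
    refine le_trans hd ?_
    rw [zero_add, Real.rpow_one, Real.rpow_one]
    have hn' : (2 : ℝ) ≤ n := by exact_mod_cast hn
    have hlogn : 0 < Real.log n := Real.log_pos (by linarith)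
    have hε2 : 0 < ε ^ 2 := by positivity
    have hl2 : (1 / 2 : ℝ) ≤ Real.log 2 := by
      have := Real.log_two_gt_d9
      linarith
    have h1 : 1 / Real.log 2 ≤ 2 := by
      rw [div_le_iff₀ (by linarith)]
      linarith
    have hC : 288 * (76 : ℝ) ^ p.toReal + 1 / Real.log 2 ≤ 289 * (76 : ℝ) ^ p.toReal := by
      linarith
    have hn0 : (0 : ℝ) ≤ n := by linarith
    have hfac : 0 ≤ 4 / ε ^ 2 * (n * Real.log n) := by positivity
    calc (288 * (76 : ℝ) ^ p.toReal + 1 / Real.log 2) / (ε / 2) ^ 2 * n * Real.log n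
        = (288 * (76 : ℝ) ^ p.toReal + 1 / Real.log 2) * (4 / ε ^ 2 * (n * Real.log n)) := by
          field_simp
          norm_num
      _ ≤ 289 * (76 : ℝ) ^ p.toReal * (4 / ε ^ 2 * (n * Real.log n)) :=
          mul_le_mul_of_nonneg_right hC hfac
      _ = 1156 * 76 ^ p.toReal / ε ^ 2 * n * Real.log n := by ring
  · intro i j
    rw [dist_smul₀, Real.norm_of_nonneg hlam0.le]
    obtain ⟨h1, h2⟩ := hy i j
    rw [hx i j] at h1 h2
    by_cases hij : f i = f j
    · have hgij : g i = g j := by simp only [hg, hij]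
      rw [hgij, dist_self] at h2
      have h0 : dist (WithLp.toLp p (fun l => c l * x i (κ l)) : PiLp p (fun _ : Fin d => ℝ))
          (WithLp.toLp p (fun l => c l * x j (κ l))) = 0 :=
        le_antisymm (by simpa using h2) dist_nonneg
      rw [h0, hij, dist_self]
      simp
    · have hD := hmin i j hij
      have hgi := hG (f i)
      have hgj := hG (f j)
      have ht1 : dist (f i) (f j) ≤
          dist (f i) (g i : Lp ℝ p μ) + dist (g i : Lp ℝ p μ) (g j : Lp ℝ p μ) +
            dist (g j : Lp ℝ p μ) (f j) := dist_triangle4 _ _ _ _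
      have ht2 : dist (g i : Lp ℝ p μ) (g j : Lp ℝ p μ) ≤
          dist (g i : Lp ℝ p μ) (f i) + dist (f i) (f j) + dist (f j) (g j : Lp ℝ p μ) :=
        dist_triangle4 _ _ _ _
      have hc1 : dist (g i : Lp ℝ p μ) (f i) < δ := by rw [dist_comm]; exact hgi
      have hc2 : dist (g j : Lp ℝ p μ) (f j) < δ := by rw [dist_comm]; exact hgj
      set Df := dist (f i) (f j) with hDf
      set Dg := dist (g i : Lp ℝ p μ) (g j : Lp ℝ p μ) with hDg
      set Dy := dist (WithLp.toLp p (fun l => c l * x i (κ l)) : PiLp p (fun _ : Fin d => ℝ))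
          (WithLp.toLp p (fun l => c l * x j (κ l))) with hDy
      have hδD : 2 * δ ≤ ε / 8 * Df := by
        rw [hδ]
        nlinarith
      have hlow : (1 - ε / 8) * Df ≤ Dg := by linarith
      have hup : Dg ≤ (1 + ε / 8) * Df := by linarith
      have hDf0 : 0 ≤ Df := dist_nonneg
      constructor
      · rw [hlam, one_div, inv_mul_eq_div, le_div_iff₀ h8]
        nlinarith
      · rw [hlam, one_div, inv_mul_eq_div, div_le_iff₀ h8]
        have h3 : Dy ≤ (1 + ε / 2) * ((1 + ε / 8) * Df) :=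
          le_trans h2 (mul_le_mul_of_nonneg_left hup (by linarith))
        have h4 : (1 + ε / 2) * (1 + ε / 8) ≤ (1 + ε) * (1 - ε / 8) := by nlinarith
        calc Dy ≤ (1 + ε / 2) * ((1 + ε / 8) * Df) := h3
          _ = ((1 + ε / 2) * (1 + ε / 8)) * Df := by ring
          _ ≤ ((1 + ε) * (1 - ε / 8)) * Df := mul_le_mul_of_nonneg_right h4 hDf0
          _ = (1 + ε) * Df * (1 - ε / 8) := by ring

end Vale.Agent.Lib.P249.H3lp
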