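import Mathlib

namespace Vale.Agent.Lib.P249.H3lp

open MeasureTheory

variable {α : Type*} [MeasurableSpace α]

/-- The joint simple function of finitely many real simple functions. -/
noncomputable def joint {n : ℕ} (s : Fin n → SimpleFunc α ℝ) : SimpleFunc α (Fin n → ℝ) where
  toFun a i := s i a
  measurableSet_fiber' r := by
    have h : (fun a i => s i a) ⁻¹' {r} = ⋂ i, (s i) ⁻¹' {r i} := by
      ext a
      simp only [Set.mem_preimage, Set.mem_singleton_iff, Set.mem_iInter]
      constructor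
      · intro h i
        rw [← h]
      · intro h
        funext i
        exact h i
    rw [h]
    exact MeasurableSet.iInter fun i => (s i).measurableSet_fiber (r i)
  finite_range' := by
    refine Set.Finite.subset (Set.Finite.pi' fun i => (s i).finite_range) ?_
    rintro _ ⟨a, rfl⟩
    intro i
    exact ⟨a, rfl⟩

theorem joint_apply {n : ℕ} (s : Fin n → SimpleFunc α ℝ) (a : α) (i : Fin n) :
    joint s a i = s i a := rfl

/-- The `L_p` distance of two simple functions as a finite weighted sum over the values of the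
joint simple function. -/
theorem dist_simple (p : ENNReal) [Fact (1 ≤ p)] (hp : p ≠ ⊤) (μ : Measure α) {n : ℕ}
    (g : Fin n → Lp.simpleFunc ℝ p μ) (i j : Fin n) :
    dist (g i : Lp ℝ p μ) (g j : Lp ℝ p μ) =
      (∑ r ∈ (joint fun i => Lp.simpleFunc.toSimpleFunc (g i)).range,
        |r i - r j| ^ p.toReal *
          (μ ((joint fun i => Lp.simpleFunc.toSimpleFunc (g i)) ⁻¹' {r})).toReal) ^
        (1 / p.toReal) := by
  classical
  have hp1 : (1 : ENNReal) ≤ p := Fact.out
  have hp0 : p ≠ 0 := (lt_of_lt_of_le zero_lt_one hp1).ne'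
  have hq : 0 < p.toReal := ENNReal.toReal_pos hp0 hp
  set s : Fin n → SimpleFunc α ℝ := fun i => Lp.simpleFunc.toSimpleFunc (g i) with hs
  set S := joint s with hS
  have h1 : dist (g i : Lp ℝ p μ) (g j : Lp ℝ p μ) = ‖g i - g j‖ := by
    rw [dist_eq_norm]
    rfl
  rw [h1, Lp.simpleFunc.norm_toSimpleFunc,
    eLpNorm_congr_ae (Lp.simpleFunc.sub_toSimpleFunc (g i) (g j)),
    eLpNorm_eq_lintegral_rpow_enorm_toReal hp0 hp]
  -- the integrand as a simple function
  set φ : (Fin n → ℝ) → ENNReal := fun r => ‖r i - r j‖ₑ ^ p.toReal with hφ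
  have h2 : ∫⁻ a, ‖(⇑(s i) - ⇑(s j)) a‖ₑ ^ p.toReal ∂μ =
      ∑ r ∈ S.range, φ r * μ (S ⁻¹' {r}) := by
    rw [← SimpleFunc.map_lintegral, ← SimpleFunc.lintegral_eq_lintegral]
    rfl
  -- each term is a real number
  have h3 : ∀ r ∈ S.range, φ r * μ (S ⁻¹' {r}) =
      ENNReal.ofReal (|r i - r j| ^ p.toReal * (μ (S ⁻¹' {r})).toReal) := by
    intro r _
    by_cases hr : r i = r j
    · simp only [hφ, hr, sub_self, enorm_zero, abs_zero]
      rw [ENNReal.zero_rpow_of_pos hq, zero_mul, Real.zero_rpow hq.ne', zero_mul,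
        ENNReal.ofReal_zero]
    · have hfin : μ (S ⁻¹' {r}) < ⊤ := by
        by_cases hi : r i = 0
        · have hj : r j ≠ 0 := fun h => hr (hi.trans h.symm)
          refine lt_of_le_of_lt (measure_mono ?_)
            (SimpleFunc.measure_preimage_lt_top_of_memLp hp0 hp (s j)
              (Lp.simpleFunc.memLp (g j)) (r j) hj)
          intro a ha
          simp only [Set.mem_preimage, Set.mem_singleton_iff] at ha ⊢
          rw [← ha]
          rfl
        · refine lt_of_le_of_lt (measure_mono ?_)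
            (SimpleFunc.measure_preimage_lt_top_of_memLp hp0 hp (s i)
              (Lp.simpleFunc.memLp (g i)) (r i) hi)
          intro a ha
          simp only [Set.mem_preimage, Set.mem_singleton_iff] at ha ⊢
          rw [← ha]
          rfl
      rw [ENNReal.ofReal_mul (Real.rpow_nonneg (abs_nonneg _) _),
        ENNReal.ofReal_toReal hfin.ne, ← ENNReal.ofReal_rpow_of_nonneg (abs_nonneg _) hq.le]
      simp only [hφ]
      congr 2
      rw [← Real.enorm_eq_ofReal_abs]
  rw [h2, Finset.sum_congr rfl h3, ← ENNReal.ofReal_sum_of_nonneg (fun r _ =>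
    mul_nonneg (Real.rpow_nonneg (abs_nonneg _) _) ENNReal.toReal_nonneg),
    ENNReal.ofReal_rpow_of_nonneg (Finset.sum_nonneg fun r _ =>
      mul_nonneg (Real.rpow_nonneg (abs_nonneg _) _) ENNReal.toReal_nonneg) (by positivity),
    ENNReal.toReal_ofReal (Real.rpow_nonneg (Finset.sum_nonneg fun r _ =>
      mul_nonneg (Real.rpow_nonneg (abs_nonneg _) _) ENNReal.toReal_nonneg) _)]

/-- Finitely many simple functions of `L_p(μ)` are isometric to points of some `ℓ_p^m`. -/
theorem exists_lp_points (p : ENNReal) [Fact (1 ≤ p)] (hp : p ≠ ⊤) (μ : Measure α) {n : ℕ}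
    (g : Fin n → Lp.simpleFunc ℝ p μ) :
    ∃ (m : ℕ) (x : Fin n → PiLp p (fun _ : Fin m => ℝ)),
      ∀ i j, dist (x i) (x j) = dist (g i : Lp ℝ p μ) (g j : Lp ℝ p μ) := by
  classical
  have hp1 : (1 : ENNReal) ≤ p := Fact.out
  have hp0 : p ≠ 0 := (lt_of_lt_of_le zero_lt_one hp1).ne'
  have hq : 0 < p.toReal := ENNReal.toReal_pos hp0 hp
  set S := joint fun i => Lp.simpleFunc.toSimpleFunc (g i) with hS
  set w : (Fin n → ℝ) → ℝ := fun r => (μ (S ⁻¹' {r})).toReal with hw
  have hw0 : ∀ r, 0 ≤ w r := fun r => ENNReal.toReal_nonneg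
  let e : Fin S.range.card ≃ ↥S.range := S.range.equivFin.symm
  refine ⟨S.range.card,
    fun i => WithLp.toLp p (fun l => (w (e l).1) ^ (1 / p.toReal) * (e l).1 i), ?_⟩
  intro i j
  rw [dist_simple p hp μ g i j, PiLp.dist_eq_sum hq]
  congr 1
  have hterm : ∀ l : Fin S.range.card,
      dist ((WithLp.toLp p (fun l => (w (e l).1) ^ (1 / p.toReal) * (e l).1 i)).ofLp l)
        ((WithLp.toLp p (fun l => (w (e l).1) ^ (1 / p.toReal) * (e l).1 j)).ofLp l) ^ p.toReal =
      |(e l).1 i - (e l).1 j| ^ p.toReal * w (e l).1 := by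
    intro l
    rw [Real.dist_eq, ← mul_sub, abs_mul, Real.mul_rpow (abs_nonneg _) (abs_nonneg _),
      abs_of_nonneg (Real.rpow_nonneg (hw0 _) _), ← Real.rpow_mul (hw0 _), one_div,
      inv_mul_cancel₀ hq.ne', Real.rpow_one, mul_comm]
  rw [Finset.sum_congr rfl fun l _ => hterm l,
    Equiv.sum_comp e (fun r : ↥S.range => |r.1 i - r.1 j| ^ p.toReal * w r.1),
    Finset.sum_coe_sort S.range (fun r => |r i - r j| ^ p.toReal * w r)]

end Vale.Agent.Lib.P249.H3lp
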