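import Vale.Agent.Lib.P249.helper62.GridDefs

/-!
# P249, grid lower bound (helper62, report 1926): abstract tensorization (pool job 230)

Backup copy by helper3.  `tensor`: a one-coordinate pair inequality with constant `C1` gives the
`k`-coordinate pair inequality with constant `C1 ^ k` (induction on `k`).
-/

namespace Vale.Agent.Lib.P249.H3grid

open Finset

theorem tensor {ι : Type*} [Fintype ι] (φ : ι → ℝ) (hφ : ∀ t, 0 ≤ φ t) (c : ι → ι → ℝ)
    (C1 : ℝ) (hC1 : 0 ≤ C1)
    (h1 : ∀ (a b : ι → ℝ) (N : ℝ), (∀ t, 0 ≤ a t) → (∀ t, 0 ≤ b t) → 0 ≤ N →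
      (∀ t t', b t * a t' ≤ N * Real.exp (c t t')) →
      (∑ t, φ t * b t) * (∑ t, φ t * a t) ≤ N * C1) :
    ∀ (k : ℕ) (a b : (Fin k → ι) → ℝ) (N : ℝ), (∀ x, 0 ≤ a x) → (∀ x, 0 ≤ b x) → 0 ≤ N →
      (∀ x y, b x * a y ≤ N * Real.exp (∑ j, c (x j) (y j))) →
      (∑ x, (∏ j, φ (x j)) * b x) * (∑ y, (∏ j, φ (y j)) * a y) ≤ N * C1 ^ k := by
  intro k
  induction k with
  | zero =>
    intro a b N ha hb hN h
    have hu : (Finset.univ : Finset (Fin 0 → ι)) = {fun i => i.elim0} := by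
      ext x
      simp only [Finset.mem_univ, Finset.mem_singleton, true_iff]
      exact Subsingleton.elim _ _
    rw [hu, Finset.sum_singleton, Finset.sum_singleton]
    have h0 := h (fun i => i.elim0) (fun i => i.elim0)
    simp only [Finset.univ_eq_empty, Finset.sum_empty, Real.exp_zero, mul_one] at h0
    simp only [Finset.univ_eq_empty, Finset.prod_empty, one_mul, pow_zero, mul_one]
    exact h0
  | succ k ih =>
    intro a b N ha hb hN h
    have split : ∀ F : (Fin (k + 1) → ι) → ℝ,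
        ∑ x, F x = ∑ t : ι, ∑ x : Fin k → ι, F (Fin.cons t x) := by
      intro F
      rw [← (Fin.consEquiv (fun _ : Fin (k + 1) => ι)).sum_comp F, Fintype.sum_prod_type]
      rfl
    have hprod : ∀ (t : ι) (x : Fin k → ι),
        ∏ j, φ ((Fin.cons t x : Fin (k + 1) → ι) j) = φ t * ∏ j, φ (x j) := by
      intro t x
      rw [Fin.prod_univ_succ]
      simp only [Fin.cons_zero, Fin.cons_succ]
    have hsum : ∀ (t t' : ι) (x y : Fin k → ι),
        ∑ j, c ((Fin.cons t x : Fin (k + 1) → ι) j) ((Fin.cons t' y : Fin (k + 1) → ι) j)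
          = c t t' + ∑ j, c (x j) (y j) := by
      intro t t' x y
      rw [Fin.sum_univ_succ]
      simp only [Fin.cons_zero, Fin.cons_succ]
    have hprodnn : ∀ x : Fin k → ι, 0 ≤ ∏ j, φ (x j) :=
      fun x => Finset.prod_nonneg fun j _ => hφ _
    have hBs0 : ∀ t, 0 ≤ ∑ x : Fin k → ι, (∏ j, φ (x j)) * b (Fin.cons t x) :=
      fun t => Finset.sum_nonneg fun x _ => mul_nonneg (hprodnn x) (hb _)
    have hAs0 : ∀ t, 0 ≤ ∑ y : Fin k → ι, (∏ j, φ (y j)) * a (Fin.cons t y) :=
      fun t => Finset.sum_nonneg fun x _ => mul_nonneg (hprodnn x) (ha _)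
    have hC1k : 0 ≤ C1 ^ k := pow_nonneg hC1 k
    have hpair : ∀ t t', (∑ x : Fin k → ι, (∏ j, φ (x j)) * b (Fin.cons t x)) *
        (∑ y : Fin k → ι, (∏ j, φ (y j)) * a (Fin.cons t' y))
          ≤ (N * C1 ^ k) * Real.exp (c t t') := by
      intro t t'
      have h3 := ih (fun y => a (Fin.cons t' y)) (fun x => b (Fin.cons t x))
        (N * Real.exp (c t t'))
        (fun y => ha _) (fun x => hb _) (mul_nonneg hN (Real.exp_pos _).le)
        (by
          intro x y
          have h2 := h (Fin.cons t x) (Fin.cons t' y)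
          rw [hsum, Real.exp_add] at h2
          linarith)
      calc _ ≤ N * Real.exp (c t t') * C1 ^ k := h3
        _ = (N * C1 ^ k) * Real.exp (c t t') := by ring
    have hfin := h1 (fun t => ∑ y : Fin k → ι, (∏ j, φ (y j)) * a (Fin.cons t y))
      (fun t => ∑ x : Fin k → ι, (∏ j, φ (x j)) * b (Fin.cons t x))
      (N * C1 ^ k) hAs0 hBs0 (mul_nonneg hN hC1k) hpair
    have e1 : ∀ F : (Fin (k + 1) → ι) → ℝ, ∑ x : Fin (k + 1) → ι, (∏ j, φ (x j)) * F x
        = ∑ t, φ t * ∑ x : Fin k → ι, (∏ j, φ (x j)) * F (Fin.cons t x) := by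
      intro F
      rw [split]
      refine Finset.sum_congr rfl fun t _ => ?_
      rw [Finset.mul_sum]
      refine Finset.sum_congr rfl fun x _ => ?_
      rw [hprod]
      ring
    rw [e1 b, e1 a]
    calc _ ≤ N * C1 ^ k * C1 := hfin
      _ = N * C1 ^ (k + 1) := by ring

end Vale.Agent.Lib.P249.H3grid
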